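import Vale.Agent.P116.L.Defs
import Vale.Agent.P164.Univ

/-! P116 L/Nrm. (TASK) Put `H w = g (R / w) - R / w` for `w ≠ 0`, `H 0 = 0` (`Function.update`); `H` is holomorphic on the unit disc (`differentiableOn_update_limUnder_of_bddAbove`, or `differentiableOn_compl_singleton_and_continuousAt_iff`). `P142.area_co` with `z = 0`, `c = R`, `s = {k + 1}` gives `‖co H (k + 1)‖ ≤ R`; `P164.kb_tail` gives `‖H w‖ ≤ R` on `‖w‖ = 1 / 2`, maximum principle `Complex.norm_le_of_forall_mem_frontier_norm_le` on `ball 0 (1 / 2)`. Helper names start with `lnr_`. -/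

open MeasureTheory Set Metric Filter Topology Complex
open scoped ENNReal ComplexConjugate Real

set_option linter.unusedSectionVars false

noncomputable section

namespace Vale.Agent.P116.L

open Vale.Agent.P116

variable {ι : Type} {s s' : Finset ι} {K S : ι → Set ℂ} {g h φ : ℂ → ℂ} {a ζ : ι → ℂ}
  {r σ : ι → ℝ} {V U A B E F : Set ℂ} {p e z w : ℂ} {t ρ R M η ε : ℝ}

theorem nrm_out (hR : 0 < R) (hd : DifferentiableOn ℂ g {z | R < ‖z‖}) (hi : InjOn g {z | R < ‖z‖})
    (hn : Tendsto (fun z => g z - z) (cocompact ℂ) (𝓝 0)) (hz : 2 * R ≤ ‖z‖) : ‖g z - z‖ ≤ R := by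
  have hR0 : (R : ℂ) ≠ 0 := ofReal_ne_zero.2 hR.ne'
  have hnorm : ∀ w : ℂ, ‖(R : ℂ) / w‖ = R / ‖w‖ := fun w => by
    rw [norm_div, norm_real, Real.norm_of_nonneg hR.le]
  have hm : ∀ w ∈ ball (0 : ℂ) 1 \ {0}, (R : ℂ) / w ∈ {z : ℂ | R < ‖z‖} := fun w hw => by
    show R < ‖_‖
    rw [hnorm, lt_div_iff₀ (norm_pos_iff.2 hw.2)]
    exact mul_lt_of_lt_one_right hR (mem_ball_zero_iff.1 hw.1)
  obtain ⟨H, hH, H0, Hc⟩ : ∃ H : ℂ → ℂ, (∀ w, w ≠ 0 → H w = g (R / w) - R / w) ∧ H 0 = 0 ∧
      ContinuousAt H 0 := by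
    refine ⟨Function.update (fun w => g (R / w) - R / w) 0 0,
      fun w hw => Function.update_of_ne hw _ _, Function.update_self _ _ _,
      continuousAt_update_same.2 (hn.comp (f := fun w : ℂ => (R : ℂ) / w) ?_)⟩
    rw [← Metric.cobounded_eq_cocompact]
    exact ((tendsto_mul_left_cobounded hR0).comp tendsto_inv₀_nhdsNE_zero).congr
      fun w => (div_eq_mul_inv _ _).symm
  have hdH : DifferentiableOn ℂ H (ball 0 1) := by
    refine (differentiableOn_compl_singleton_and_continuousAt_iff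
      (ball_mem_nhds 0 one_pos)).1 ⟨?_, Hc⟩
    have h1 : DifferentiableOn ℂ (fun w : ℂ => (R : ℂ) / w) (ball 0 1 \ {0}) :=
      (differentiableOn_const _).div differentiableOn_id fun w hw => hw.2
    exact ((hd.comp h1 hm).sub h1).congr fun w hw => hH w hw.2
  have hiH : InjOn (fun w => (R : ℂ) / (w - 0) + H w) (ball 0 1 \ {0}) := fun w hw w' hw' e => by
    simp only [sub_zero, hH w hw.2, hH w' hw'.2, add_sub_cancel] at e
    have h1 := hi (hm w hw) (hm w' hw') e
    rw [div_eq_div_iff hw.2 hw'.2] at h1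
    exact (mul_left_cancel₀ hR0 h1).symm
  have hco : ∀ k, ‖P142.co H (k + 1)‖ ≤ R := fun k => by
    have h1 := P142.area_co hR0 (by simp) hdH hiH {k + 1}
    simp only [Finset.sum_singleton, norm_zero, norm_real, Real.norm_of_nonneg hR.le] at h1
    norm_num at h1
    have h2 : (0 : ℝ) ≤ k := k.cast_nonneg
    refine (sq_le_sq₀ (norm_nonneg _) hR.le).1 ?_
    nlinarith [sq_nonneg ‖P142.co H (k + 1)‖]
  have h2 : (1 / 2 : ℝ) ≠ 0 := by norm_num
  have hz0 : 0 < ‖z‖ := by linarith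
  have h3 := Complex.norm_le_of_forall_mem_frontier_norm_le (U := ball 0 (1 / 2)) (f := H) (C := R)
    (z := R / z) isBounded_ball (DifferentiableOn.diffContOnCl (hdH.mono (by
      rw [closure_ball _ h2]
      exact closedBall_subset_ball (by norm_num)))) (fun w hw => by
      rw [frontier_ball _ h2, mem_sphere_zero_iff_norm] at hw
      have h4 := P164.kb_tail hdH hco hw
      rwa [H0, sub_zero] at h4) (by
      rw [closure_ball _ h2, mem_closedBall_zero_iff, hnorm, div_le_iff₀ hz0]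
      linarith)
  rwa [hH _ (div_ne_zero hR0 (norm_pos_iff.1 hz0)), div_div_cancel₀ hR0] at h3

end Vale.Agent.P116.L
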