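import Vale.Agent.P116.L.Max
import Vale.Agent.P116.L.Nrm

/-! P116 L/Ar. (TASK) `bound`: `nrm_out` on the sphere of radius `2 * R`, `Circ.max` with `U = ball 0 (2 * R)`, `norm_le_of_pr`. `area_inj`: `lintegral_abs_det_fderiv_eq_addHaar_image` with the real determinant `‖deriv h z‖ ^ 2` (see `Vale.Agent.P142.Area`, P116 `S/Lip`). `area_bd`: the image lies in `closedBall 0 (3 * R)` (`Complex.volume_closedBall`, `Real.pi_le_four`); the discs are disjoint and lie in the same ball (`measure_biUnion_finset`). Helper names start with `lar_`. -/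

open MeasureTheory Set Metric Filter Topology Complex
open scoped ENNReal ComplexConjugate Real

set_option linter.unusedSectionVars false

noncomputable section

namespace Vale.Agent.P116.L

open Vale.Agent.P116

variable {ι : Type} {s s' : Finset ι} {K S : ι → Set ℂ} {g h φ : ℂ → ℂ} {a ζ : ι → ℂ}
  {r σ : ι → ℝ} {V U A B E F : Set ℂ} {p e z w : ℂ} {t ρ R M η ε : ℝ}

theorem lar_ball (hR : 0 < R) : volume (closedBall (0 : ℂ) (3 * R)) ≤ ENNReal.ofReal (36 * R ^ 2) := by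
  rw [Complex.volume_closedBall, ← ENNReal.ofReal_pow (by positivity), ← ENNReal.ofReal_coe_nnreal,
    ← ENNReal.ofReal_mul (by positivity)]
  refine ENNReal.ofReal_le_ofReal ?_
  have := Real.pi_le_four
  rw [NNReal.coe_real_pi]
  nlinarith [sq_nonneg R]

theorem lar_disc (x : ℂ) (y : ℝ) : ENNReal.ofReal y ^ 2 ≤ volume (closedBall x y) := by
  rw [Complex.volume_closedBall]
  refine le_mul_of_one_le_right' ?_
  rw [ENNReal.one_le_coe_iff, ← NNReal.coe_le_coe, NNReal.coe_real_pi, NNReal.coe_one]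
  linarith [Real.pi_gt_three]

theorem Circ.bound (hK : Cont s K) (h : Circ s K g a r) (hR : 0 < R)
    (hb : ∀ j ∈ s, K j ⊆ ball 0 R) : (∀ z, ‖z‖ ≤ 2 * R → ∀ w ∈ Phi s K g a r z, ‖w‖ ≤ 3 * R) ∧
      ∀ z, z ∉ ⋃ j ∈ s, K j → ‖g z - z‖ ≤ 5 * R := by
  have hout : ∀ z : ℂ, R < ‖z‖ → z ∉ ⋃ j ∈ s, K j := by
    intro z hz hm
    obtain ⟨j, hj, hzj⟩ := mem_iUnion₂.1 hm
    have := mem_ball_zero_iff.1 (hb j hj hzj)
    linarith
  have hn : ∀ z : ℂ, 2 * R ≤ ‖z‖ → ‖g z - z‖ ≤ R := fun z hz =>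
    nrm_out hR (h.hol.mono hout) (h.inj.mono hout) h.nrm hz
  have hs : ∀ z : ℂ, ‖z‖ = 2 * R → ∀ w ∈ Phi s K g a r z, ‖w‖ ≤ 3 * R := by
    intro z hz w hw
    rw [phi_of_not (hout z (by linarith)), mem_singleton_iff] at hw
    have h1 := hn z hz.ge
    have h2 := norm_le_norm_add_norm_sub' (g z) z
    rw [hw]
    linarith
  have h1 : ∀ z, ‖z‖ ≤ 2 * R → ∀ w ∈ Phi s K g a r z, ‖w‖ ≤ 3 * R := by
    intro z hz w hw
    rcases hz.eq_or_lt with hz | hz
    · exact hs z hz w hw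
    · refine norm_le_of_pr (by positivity) fun e he => ?_
      refine h.max hK (U := ball 0 (2 * R)) isOpen_ball isBounded_ball he ?_ z
        (mem_ball_zero_iff.2 hz) w hw
      intro y hy v hv
      rw [frontier_ball _ (by positivity), mem_sphere_zero_iff_norm] at hy
      exact ((le_abs_self _).trans (pr_le he v)).trans (hs y hy v hv)
  refine ⟨h1, fun z hz => ?_⟩
  rcases le_total ‖z‖ (2 * R) with h2 | h2
  · have h3 := h1 z h2 (g z) (by rw [phi_of_not hz]; exact mem_singleton _)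
    have h4 := norm_sub_le (g z) z
    linarith
  · linarith [hn z h2]

theorem area_inj (hU : IsOpen U) (hd : DifferentiableOn ℂ h U) (hi : InjOn h U)
    (hB : MeasurableSet B) (hBU : B ⊆ U) : ∫⁻ z in B, ‖deriv h z‖ₑ ^ 2 = volume (h '' B) := by
  have := P142.cov hB (fun z hz => hd.differentiableAt (hU.mem_nhds (hBU hz))) (hi.mono hBU)
    fun _ => 1
  rw [setLIntegral_one] at this
  rw [this]
  refine lintegral_congr fun z => ?_
  rw [mul_one, ENNReal.ofReal_pow (norm_nonneg _), ofReal_norm]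

theorem area_bd (hq : Sq V φ s ζ σ) (h : Circ s (Ks φ ζ σ) g a r) (hR : 0 < R)
    (hb : ∀ j ∈ s, Ks φ ζ σ j ⊆ ball 0 R) (hs : s' ⊆ s) (hB : MeasurableSet B) (hBV : B ⊆ V)
    (hφ : φ '' B ⊆ closedBall 0 (2 * R)) :
    En (g ∘ φ) (⋃ j ∈ s, sqr (ζ j) (σ j)) s' (fun j => sqr (ζ j) (σ j)) r B ≤
      ENNReal.ofReal (100 * R ^ 2) := by
  classical
  have hK := hq.cont
  obtain ⟨hO, hD, hI⟩ := hq.hol_comp h
  obtain ⟨h1, -⟩ := h.bound hK hR hb
  have hA : IsClosed (⋃ j ∈ s, sqr (ζ j) (σ j)) :=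
    isClosed_biUnion_finset fun j _ => (sqr_cpt _ _).isClosed
  have e1 : ∫⁻ z in B \ ⋃ j ∈ s, sqr (ζ j) (σ j), ‖deriv (g ∘ φ) z‖ₑ ^ 2 ≤
      ENNReal.ofReal (36 * R ^ 2) := by
    rw [area_inj hO hD hI (hB.diff hA.measurableSet) (sdiff_subset_sdiff_left hBV)]
    refine (measure_mono ?_).trans (lar_ball hR)
    rintro _ ⟨z, ⟨hz, hz'⟩, rfl⟩
    refine mem_closedBall_zero_iff.2 (h1 (φ z) (mem_closedBall_zero_iff.1 (hφ ⟨z, hz, rfl⟩)) _ ?_)
    refine Or.inl ⟨fun hm => hz' ?_, rfl⟩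
    obtain ⟨j, hj, hzj⟩ := mem_iUnion₂.1 hm
    exact mem_iUnion₂.2 ⟨j, hj, (hq.mem_iff (hBV hz) hj).1 hzj⟩
  have e2 : ∑ j ∈ s, ENNReal.ofReal (r j) ^ 2 ≤ ENNReal.ofReal (36 * R ^ 2) := by
    refine (Finset.sum_le_sum fun j _ => lar_disc (a j) (r j)).trans ?_
    rw [← measure_biUnion_finset (fun i hi j hj hij => h.dis i hi j hj hij)
      fun j _ => measurableSet_closedBall]
    refine (measure_mono (iUnion₂_subset fun j hj w hw => ?_)).trans (lar_ball hR)
    obtain ⟨z, hz⟩ := hK.ne j hj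
    have h2 := mem_ball_zero_iff.1 (hb j hj hz)
    exact mem_closedBall_zero_iff.2 (h1 z (by linarith) w (Or.inr ⟨j, hj, hz, hw⟩))
  unfold En
  refine (add_le_add e1 ((Finset.sum_le_sum_of_subset
    ((Finset.filter_subset _ _).trans hs)).trans e2)).trans ?_
  rw [← ENNReal.ofReal_add (by positivity) (by positivity)]
  exact ENNReal.ofReal_le_ofReal (by nlinarith [sq_nonneg R])

end Vale.Agent.P116.L
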