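import Vale.Agent.P116.L.Defs

/-! P116 L/Pol. (TASK) Polar coordinates. `Complex.lintegral_comp_polarCoord_symm` for `f z = (ann p ρ \ A).indicator (‖deriv h ·‖ₑ) (p + z)`, translation invariance (`lintegral_add_left_eq_self`), Tonelli (`lintegral_prod`, `Measure.volume_eq_prod`, `Measure.prod_restrict`, `polarCoord_target`), `measurable_deriv`, `Complex.polarCoord_symm_apply`, `circleMap`, `exp_mul_I`. Helper names start with `lpo_`. -/

open MeasureTheory Set Metric Filter Topology Complex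
open scoped ENNReal ComplexConjugate Real

set_option linter.unusedSectionVars false

noncomputable section

namespace Vale.Agent.P116.L

open Vale.Agent.P116

variable {ι : Type} {s s' : Finset ι} {K S : ι → Set ℂ} {g h φ : ℂ → ℂ} {a ζ : ι → ℂ}
  {r σ : ι → ℝ} {V U A B E F : Set ℂ} {p e z w : ℂ} {t ρ R M η ε : ℝ}

theorem lpo_meas (hA : MeasurableSet A) (h : ℂ → ℂ) (p : ℂ) : Measurable fun q : ℝ × ℝ =>
    ENNReal.ofReal q.1 * Aᶜ.indicator (fun z => ‖deriv h z‖ₑ) (circleMap p q.1 q.2) := by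
  have h1 : Continuous fun q : ℝ × ℝ => circleMap p q.1 q.2 := by
    unfold circleMap
    fun_prop
  exact measurable_fst.ennreal_ofReal.mul
    (((measurable_deriv h).enorm.indicator hA.compl).comp h1.measurable)

theorem lpo_eq (p : ℂ) (q : ℝ × ℝ) : p + Complex.polarCoord.symm q = circleMap p q.1 q.2 := by
  rw [Complex.polarCoord_symm_apply, circleMap, exp_mul_I, ofReal_cos, ofReal_sin]

theorem meas_Ln (hA : MeasurableSet A) (h : ℂ → ℂ) (p : ℂ) : Measurable (Ln h A p) := by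
  exact (lpo_meas hA h p).lintegral_prod_right'

theorem polar (hA : MeasurableSet A) (h : ℂ → ℂ) (p : ℂ) (hρ : 0 < ρ) :
    ∫⁻ t in Ioo ρ (2 * ρ), Ln h A p t ≤ ∫⁻ z in ann p ρ \ A, ‖deriv h z‖ₑ := by
  have hS : MeasurableSet (ann p ρ \ A) :=
    (measurableSet_closedBall.diff measurableSet_ball).diff hA
  have e1 : ∫⁻ t in Ioo ρ (2 * ρ), Ln h A p t = ∫⁻ q in Ioo ρ (2 * ρ) ×ˢ Ioo (-π) π,
      ENNReal.ofReal q.1 * Aᶜ.indicator (fun z => ‖deriv h z‖ₑ) (circleMap p q.1 q.2) := by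
    rw [Measure.volume_eq_prod, setLIntegral_prod _ (lpo_meas hA h p).aemeasurable]
    rfl
  rw [e1, ← lintegral_indicator hS, ← lintegral_add_left_eq_self _ p,
    ← Complex.lintegral_comp_polarCoord_symm]
  refine le_trans (le_of_eq (setLIntegral_congr_fun (measurableSet_Ioo.prod measurableSet_Ioo)
    fun q hq => ?_)) (lintegral_mono_set (s := Ioo ρ (2 * ρ) ×ˢ Ioo (-π) π) fun q hq =>
      ⟨hρ.trans hq.1.1, hq.2⟩)
  have hn : dist (circleMap p q.1 q.2) p = q.1 := by
    rw [dist_eq_norm, circleMap_sub_center, norm_circleMap_zero, abs_of_pos (hρ.trans hq.1.1)]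
  have hm : circleMap p q.1 q.2 ∈ ann p ρ :=
    ⟨mem_closedBall.2 (hn.trans_le hq.1.2.le), fun hb =>
      (mem_ball.1 hb).not_gt (hq.1.1.trans_eq hn.symm)⟩
  simp only [lpo_eq, smul_eq_mul]
  by_cases hz : circleMap p q.1 q.2 ∈ A
  · rw [indicator_of_notMem (show _ ∉ Aᶜ from fun h1 => h1 hz),
      indicator_of_notMem (show _ ∉ ann p ρ \ A from fun h1 => h1.2 hz)]
  · rw [indicator_of_mem (show _ ∈ Aᶜ from hz), indicator_of_mem (show _ ∈ ann p ρ \ A from ⟨hm, hz⟩)]

end Vale.Agent.P116.L
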