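import Vale.Agent.P116.L.Fat
import Vale.Agent.P116.L.Pol

/-! P116 L/Avg. (TASK) Integrate `Lt` over `Ioo ρ (2 * ρ)` (write the filtered sum as a sum of indicators of the sets in `sq_len`, `lintegral_finset_sum`). With `x ≤ η / ρ + ρ / η * x ^ 2` and `polar` the first part is at most `16 * η * ρ + ρ / η * E₁` (area of the ball of radius `2 * ρ`); with `2 * r * l ≤ ρ / η * r ^ 2 + η / ρ * l ^ 2`, `sq_len` (the set is empty if the square misses `ann p ρ`) and `fat` the second part is at most `ρ / η * E₂ + 144 * η * ρ`. Total `161 * η * ρ`; if `Lt > 200 * η` on the interval the integral is at least `200 * η * ρ` (`setLIntegral_mono'`, `setLIntegral_const`). Helper names start with `lav_`. -/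

open MeasureTheory Set Metric Filter Topology Complex
open scoped ENNReal ComplexConjugate Real

set_option linter.unusedSectionVars false

noncomputable section

namespace Vale.Agent.P116.L

open Vale.Agent.P116

variable {ι : Type} {s s' : Finset ι} {K S : ι → Set ℂ} {g h φ : ℂ → ℂ} {a ζ : ι → ℂ}
  {r σ : ι → ℝ} {V U A B E F : Set ℂ} {p e z w : ℂ} {t ρ R M η ε : ℝ}

theorem lav_one {x c : ℝ} (hx : 0 ≤ x) (hc : 0 < c) :
    ENNReal.ofReal x ≤ ENNReal.ofReal c + ENNReal.ofReal c⁻¹ * ENNReal.ofReal x ^ 2 := by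
  rw [← ENNReal.ofReal_pow hx, ← ENNReal.ofReal_mul (inv_pos.2 hc).le,
    ← ENNReal.ofReal_add hc.le (by positivity)]
  apply ENNReal.ofReal_le_ofReal
  have h1 : c + c⁻¹ * x ^ 2 - x = c⁻¹ * ((c - x) ^ 2 + c * x) := by field_simp; ring
  have h2 : 0 ≤ c⁻¹ * ((c - x) ^ 2 + c * x) := by positivity
  linarith

theorem lav_two {x l c : ℝ} (hx : 0 ≤ x) (hl : 0 ≤ l) (hc : 0 < c) :
    ENNReal.ofReal (2 * x) * ENNReal.ofReal l ≤
      ENNReal.ofReal c⁻¹ * ENNReal.ofReal x ^ 2 + ENNReal.ofReal c * ENNReal.ofReal l ^ 2 := by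
  rw [← ENNReal.ofReal_pow hx, ← ENNReal.ofReal_pow hl, ← ENNReal.ofReal_mul (inv_pos.2 hc).le,
    ← ENNReal.ofReal_mul hc.le, ← ENNReal.ofReal_mul (by positivity),
    ← ENNReal.ofReal_add (by positivity) (by positivity)]
  apply ENNReal.ofReal_le_ofReal
  have h1 : c⁻¹ * x ^ 2 + c * l ^ 2 - 2 * x * l = c⁻¹ * (x - c * l) ^ 2 := by field_simp; ring
  have h2 : 0 ≤ c⁻¹ * (x - c * l) ^ 2 := by positivity
  linarith

theorem lav_vol (hρ : 0 < ρ) : volume (ann p ρ \ A) ≤ ENNReal.ofReal (16 * ρ ^ 2) := by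
  have h1 : volume (ann p ρ \ A) ≤ volume (closedBall p (2 * ρ)) :=
    measure_mono (fun z hz => hz.1.1)
  refine h1.trans ?_
  rw [Complex.volume_closedBall, ← ENNReal.ofReal_pow (by positivity),
    ← ENNReal.ofReal_coe_nnreal, ← ENNReal.ofReal_mul (by positivity)]
  apply ENNReal.ofReal_le_ofReal
  have h2 := Real.pi_le_four
  rw [NNReal.coe_real_pi]
  nlinarith [sq_nonneg ρ]

theorem lav_fst {c : ℝ} (hA : MeasurableSet A) (hρ : 0 < ρ) (hc : 0 < c) :
    ∫⁻ t in Ioo ρ (2 * ρ), Ln h A p t ≤ ENNReal.ofReal c * ENNReal.ofReal (16 * ρ ^ 2) +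
      ENNReal.ofReal c⁻¹ * ∫⁻ z in ann p ρ \ A, ‖deriv h z‖ₑ ^ 2 := by
  refine (polar hA h p hρ).trans ?_
  have h1 : ∫⁻ z in ann p ρ \ A, ‖deriv h z‖ₑ ≤
      ∫⁻ z in ann p ρ \ A, (ENNReal.ofReal c + ENNReal.ofReal c⁻¹ * ‖deriv h z‖ₑ ^ 2) := by
    refine lintegral_mono fun z => ?_
    have h2 := lav_one (norm_nonneg (deriv h z)) hc
    rw [ofReal_norm] at h2
    exact h2
  refine h1.trans ?_
  rw [lintegral_add_left measurable_const, lintegral_const_mul' _ _ ENNReal.ofReal_ne_top,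
    setLIntegral_const]
  gcongr
  exact lav_vol hρ

open Classical in
theorem lav_snd {c : ℝ} (hp : ∀ j ∈ s, 0 < σ j) (hr : ∀ j ∈ s, 0 ≤ r j)
    (hd : ∀ i ∈ s, ∀ j ∈ s, i ≠ j → Disjoint (sqr (ζ i) (σ i)) (sqr (ζ j) (σ j))) (hρ : 0 < ρ)
    (hc : 0 < c) :
    ∫⁻ t in Ioo ρ (2 * ρ), ∑ j ∈ s.filter fun j => (sqr (ζ j) (σ j) ∩ sphere p t).Nonempty,
      ENNReal.ofReal (2 * r j) ≤
      ENNReal.ofReal c⁻¹ * (∑ j ∈ s.filter fun j => (sqr (ζ j) (σ j) ∩ ann p ρ).Nonempty,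
        ENNReal.ofReal (r j) ^ 2) + ENNReal.ofReal c * ENNReal.ofReal (144 * ρ ^ 2) := by
  set T : ι → Set ℝ := fun j =>
    {t | t ∈ Ioo ρ (2 * ρ) ∧ (sqr (ζ j) (σ j) ∩ sphere p t).Nonempty} with hT
  have hm : ∀ j, MeasurableSet (T j) := fun j => (sq_len (ζ j) p (σ j) ρ).1
  have hv : ∀ j, volume (T j) ≤ ENNReal.ofReal (min (2 * σ j) ρ) :=
    fun j => (sq_len (ζ j) p (σ j) ρ).2
  have h1 : ∫⁻ t in Ioo ρ (2 * ρ), ∑ j ∈ s.filter fun j =>
      (sqr (ζ j) (σ j) ∩ sphere p t).Nonempty, ENNReal.ofReal (2 * r j) ≤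
      ∫⁻ t in Ioo ρ (2 * ρ), ∑ j ∈ s, (T j).indicator (fun _ => ENNReal.ofReal (2 * r j)) t := by
    refine setLIntegral_mono' measurableSet_Ioo fun t ht => ?_
    rw [Finset.sum_filter]
    refine Finset.sum_le_sum fun j _ => ?_
    split_ifs with hj
    · rw [indicator_of_mem (show t ∈ T j from ⟨ht, hj⟩)]
    · exact zero_le
  have h2 : ∫⁻ t in Ioo ρ (2 * ρ), ∑ j ∈ s, (T j).indicator (fun _ => ENNReal.ofReal (2 * r j)) t
      ≤ ∑ j ∈ s, ENNReal.ofReal (2 * r j) * volume (T j) := by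
    refine (setLIntegral_le_lintegral _ _).trans ?_
    rw [lintegral_finsetSum _ fun j _ => measurable_const.indicator (hm j)]
    refine Finset.sum_le_sum fun j _ => ?_
    rw [lintegral_indicator_const (hm j)]
  have h3 : ∀ j ∈ s, ENNReal.ofReal (2 * r j) * volume (T j) ≤
      ENNReal.ofReal c⁻¹ * (if (sqr (ζ j) (σ j) ∩ ann p ρ).Nonempty then
        ENNReal.ofReal (r j) ^ 2 else 0) +
      ENNReal.ofReal c * (if (sqr (ζ j) (σ j) ∩ closedBall p (2 * ρ)).Nonempty then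
        ENNReal.ofReal (min (2 * σ j) ρ) ^ 2 else 0) := by
    intro j hj
    rcases (T j).eq_empty_or_nonempty with he | ⟨t, ht, z, hz1, hz2⟩
    · rw [he, measure_empty, mul_zero]
      exact zero_le
    · rw [mem_sphere] at hz2
      have hb : z ∈ closedBall p (2 * ρ) := by
        rw [mem_closedBall, hz2]; exact ht.2.le
      have ha : z ∈ ann p ρ := ⟨hb, by
        rw [mem_ball, hz2]; exact not_lt.2 ht.1.le⟩
      rw [if_pos ⟨z, hz1, ha⟩, if_pos ⟨z, hz1, hb⟩]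
      refine le_trans ?_ (lav_two (hr j hj) (le_min (by linarith [hp j hj]) hρ.le) hc)
      gcongr
      exact hv j
  refine h1.trans (h2.trans ((Finset.sum_le_sum h3).trans ?_))
  rw [Finset.sum_add_distrib, ← Finset.mul_sum, ← Finset.mul_sum, ← Finset.sum_filter,
    ← Finset.sum_filter]
  gcongr
  exact fat hp hd hρ

theorem avg (hA : MeasurableSet A) (hp : ∀ j ∈ s, 0 < σ j) (hr : ∀ j ∈ s, 0 ≤ r j)
    (hd : ∀ i ∈ s, ∀ j ∈ s, i ≠ j → Disjoint (sqr (ζ i) (σ i)) (sqr (ζ j) (σ j))) (hρ : 0 < ρ)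
    (hη : 0 < η) (hE : En h A s (fun j => sqr (ζ j) (σ j)) r (ann p ρ) ≤ ENNReal.ofReal (η ^ 2)) :
    ∃ t ∈ Ioo ρ (2 * ρ), Lt h A s (fun j => sqr (ζ j) (σ j)) r p t ≤ ENNReal.ofReal (200 * η) := by
  by_contra hc
  push Not at hc
  have hc0 : 0 < η / ρ := by positivity
  have h1 : ENNReal.ofReal (200 * η) * ENNReal.ofReal ρ ≤
      ∫⁻ t in Ioo ρ (2 * ρ), Lt h A s (fun j => sqr (ζ j) (σ j)) r p t := by
    have h2 : ∫⁻ _ in Ioo ρ (2 * ρ), ENNReal.ofReal (200 * η) ≤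
        ∫⁻ t in Ioo ρ (2 * ρ), Lt h A s (fun j => sqr (ζ j) (σ j)) r p t :=
      setLIntegral_mono' measurableSet_Ioo fun t ht => (hc t ht).le
    rw [setLIntegral_const, Real.volume_Ioo, show 2 * ρ - ρ = ρ by ring] at h2
    exact h2
  unfold Lt at h1
  unfold En at hE
  rw [lintegral_add_left (meas_Ln hA h p)] at h1
  have h3 := h1.trans (add_le_add (lav_fst (h := h) (p := p) hA hρ hc0)
    (lav_snd (p := p) hp hr hd hρ hc0))
  rw [add_assoc, ← add_assoc (ENNReal.ofReal (η / ρ)⁻¹ * _), ← mul_add] at h3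
  have h4 := h3.trans (add_le_add le_rfl (add_le_add (mul_le_mul_right hE _) le_rfl))
  rw [← ENNReal.ofReal_mul (by positivity), ← ENNReal.ofReal_mul (by positivity),
    ← ENNReal.ofReal_mul (by positivity), ← ENNReal.ofReal_mul (by positivity),
    ← ENNReal.ofReal_add (by positivity) (by positivity),
    ← ENNReal.ofReal_add (by positivity) (by positivity),
    ENNReal.ofReal_le_ofReal_iff (by positivity)] at h4
  have h5 : η / ρ * (16 * ρ ^ 2) + ((η / ρ)⁻¹ * η ^ 2 + η / ρ * (144 * ρ ^ 2)) = 161 * (η * ρ) := by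
    field_simp; ring
  have h6 : 0 < η * ρ := by positivity
  rw [h5] at h4
  linarith

end Vale.Agent.P116.L
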