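import Vale.Agent.P116.L.Defs
import Vale.Agent.P116.F.Main

/-! P116 L/Br: normalisation at infinity of the map of Koebe. -/

open MeasureTheory Set Metric Filter Topology Complex Function
open scoped ENNReal ComplexConjugate Real

set_option linter.unusedSectionVars false

noncomputable section

namespace Vale.Agent.P116.L

open Vale.Agent.P116

theorem aff_inf {g : ℂ → ℂ} {R : ℝ} (hd : DifferentiableOn ℂ g {z | R < ‖z‖})
    (hi : InjOn g {z | R < ‖z‖}) (ht : Tendsto g (cocompact ℂ) (cocompact ℂ)) :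
    ∃ α β : ℂ, α ≠ 0 ∧ Tendsto (fun z => g z - (α * z + β)) (cocompact ℂ) (𝓝 0) := by
  have t0 : Tendsto (fun z : ℂ => z⁻¹) (cocompact ℂ) (𝓝 0) := by
    rw [← cobounded_eq_cocompact]
    exact tendsto_inv₀_cobounded
  have t1 : Tendsto (fun z : ℂ => z⁻¹) (𝓝[≠] 0) (cocompact ℂ) := by
    rw [← cobounded_eq_cocompact]
    exact tendsto_inv₀_nhdsNE_zero
  have t2 : ∀ᶠ z in cocompact ℂ, g z ≠ 0 :=
    ht.eventually (isCompact_singleton (x := (0 : ℂ))).compl_mem_cocompact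
  obtain ⟨δ, hδ, h1⟩ := Metric.mem_nhdsWithin_iff.1 (t1.eventually (t2.and
    (tendsto_norm_cocompact_atTop.eventually (eventually_gt_atTop R))))
  let k : ℂ → ℂ := update (fun u => (g u⁻¹)⁻¹) 0 0
  have k0 : k 0 = 0 := update_self _ _ _
  have k1 : ∀ u, u ≠ 0 → k u = (g u⁻¹)⁻¹ := fun u hu => update_of_ne hu _ _
  have k2 : DifferentiableOn ℂ k (ball 0 δ) := by
    refine (differentiableOn_compl_singleton_and_continuousAt_iff (ball_mem_nhds 0 hδ)).1
      ⟨DifferentiableOn.congr (f := fun u => (g u⁻¹)⁻¹) (DifferentiableOn.inv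
        (hd.comp (differentiableOn_inv.mono fun u hu => hu.2) fun u hu => (h1 hu).2)
        fun u hu => (h1 hu).1) fun u hu => k1 u hu.2, ?_⟩
    exact continuousAt_update_same.2 (t0.comp (ht.comp t1))
  have k3 : InjOn k (ball 0 δ) := by
    intro u hu v hv e
    by_cases h2 : u = 0 <;> by_cases h3 : v = 0
    · rw [h2, h3]
    · rw [h2, k0, k1 v h3] at e
      exact absurd (inv_eq_zero.1 e.symm) (h1 ⟨hv, h3⟩).1
    · rw [h3, k0, k1 u h2] at e
      exact absurd (inv_eq_zero.1 e) (h1 ⟨hu, h2⟩).1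
    · rw [k1 u h2, k1 v h3] at e
      exact inv_injective (hi (h1 ⟨hu, h2⟩).2 (h1 ⟨hv, h3⟩).2 (inv_injective e))
  have k4 := P142.deriv_ne isOpen_ball k2 k3 (mem_ball_self hδ)
  have k5 : DifferentiableAt ℂ (dslope k 0) 0 :=
    ((differentiableOn_dslope (ball_mem_nhds 0 hδ)).2 k2).differentiableAt (ball_mem_nhds 0 hδ)
  have k6 : dslope k 0 0 ≠ 0 := by rwa [dslope_same]
  have k7 := continuousAt_dslope_same.2 (k5.inv k6)
  refine ⟨(dslope k 0 0)⁻¹, dslope (dslope k 0)⁻¹ 0 0, inv_ne_zero k6, ?_⟩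
  have k8 := (k7.tendsto.comp t0).sub_const (dslope (dslope k 0)⁻¹ 0 0)
  rw [sub_self] at k8
  refine k8.congr' ?_
  filter_upwards [(isCompact_singleton (x := (0 : ℂ))).compl_mem_cocompact, t2] with z hz hz'
  have hz0 : z ≠ 0 := hz
  rw [comp_apply, dslope_of_ne _ (inv_ne_zero hz0), slope_def_field, Pi.inv_apply, Pi.inv_apply,
    dslope_of_ne _ (inv_ne_zero hz0), slope_def_field, k0, k1 _ (inv_ne_zero hz0), inv_inv]
  field_simp
  ring

theorem ball_aff {α β c w : ℂ} {r : ℝ} (hα : α ≠ 0) :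
    (w - β) / α ∈ closedBall ((c - β) / α) (r / ‖α‖) ↔ w ∈ closedBall c r := by
  rw [mem_closedBall_iff_norm, mem_closedBall_iff_norm, ← sub_div, sub_sub_sub_cancel_right,
    norm_div, div_le_div_iff_of_pos_right (norm_pos_iff.2 hα)]

theorem koebeFin : KoebeFin := by
  classical
  intro ι V φ s ζ σ hq hc
  have e : ∀ X : ι → Set ℂ, ⋃ i : s, X i = ⋃ j ∈ s, X j := fun X => iUnion_subtype _ _
  obtain ⟨g, c, r, h⟩ := koebe_fin (ι := s) hq.op hq.hol hq.inj (fun i => ζ i) (fun i => σ i)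
    (fun i => hq.pos i i.2) (fun i => hq.sub i i.2)
    (fun i j hij => hq.dis i i.2 j j.2 fun h => hij (Subtype.ext h)) (by
      rw [show (⋃ i : s, φ '' sqr (ζ i) (σ i)) = _ from e (Ks φ ζ σ)]
      exact hc)
  have e1 : (⋃ i : s, φ '' sqr (ζ i) (σ i)) = ⋃ j ∈ s, Ks φ ζ σ j := e (Ks φ ζ σ)
  obtain ⟨⟨g1, g2, g3, g4⟩, g5, g6, g7⟩ := h
  rw [e1] at g1 g2 g3 g7
  have hb : Bornology.IsBounded (⋃ j ∈ s, Ks φ ζ σ j) :=
    (Bornology.isBounded_biUnion_finset s).2 fun j hj =>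
      ((isCompact_Icc.reProdIm isCompact_Icc).image_of_continuousOn
        (hq.hol.continuousOn.mono (hq.sub j hj))).isBounded
  obtain ⟨R, -, hb'⟩ := hb.subset_closedBall_lt 0 0
  have hs : {z : ℂ | R < ‖z‖} ⊆ (⋃ j ∈ s, Ks φ ζ σ j)ᶜ := fun z hz h =>
    (mem_closedBall_zero_iff.1 (hb' h)).not_gt hz
  obtain ⟨α, β, hα, ht⟩ := aff_inf (g1.mono hs) (g2.mono hs) g4
  have hn := norm_pos_iff.2 hα
  have hsur : ∀ y : ℂ, ∃ w, y = (w - β) / α := fun y => ⟨α * y + β, by field_simp; ring⟩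
  refine ⟨fun z => (g z - β) / α, fun j => if h : j ∈ s then (c ⟨j, h⟩ - β) / α else 0,
    fun j => if h : j ∈ s then r ⟨j, h⟩ / ‖α‖ else 0, (g1.sub_const β).div_const α,
    fun x hx y hy h => g2 hx hy (sub_left_injective ((div_left_inj' hα).1 h)), ?_,
    fun j hj => ?_, fun i hi j hj hij => ?_, fun j hj ε hε => ?_, ?_⟩
  · ext y
    obtain ⟨w, rfl⟩ := hsur y
    have h1 : w ∈ g '' (⋃ j ∈ s, Ks φ ζ σ j)ᶜ ↔ ∀ i : s, w ∉ closedBall (c i) (r i) := by
      rw [g3, mem_compl_iff, mem_iUnion, not_exists]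
    refine ⟨fun ⟨z, hz, h2⟩ h3 => ?_, fun h2 => ?_⟩
    · obtain ⟨j, hj, h4⟩ := mem_iUnion₂.1 h3
      rw [dif_pos hj, dif_pos hj, ball_aff hα] at h4
      exact h1.1 ⟨z, hz, sub_left_injective ((div_left_inj' hα).1 h2)⟩ _ h4
    · obtain ⟨z, hz, rfl⟩ := h1.2 fun i h3 => h2 (mem_iUnion₂.2 ⟨i, i.2, by
        rwa [dif_pos i.2, dif_pos i.2, ball_aff hα]⟩)
      exact ⟨z, hz, rfl⟩
  · rw [dif_pos hj]
    exact div_nonneg (g5 _) hn.le
  · rw [dif_pos hi, dif_pos hi, dif_pos hj, dif_pos hj, disjoint_left]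
    intro y h1 h2
    obtain ⟨w, rfl⟩ := hsur y
    rw [ball_aff hα] at h1 h2
    exact disjoint_left.1 (g6 fun h => hij (congrArg Subtype.val h)) h1 h2
  · obtain ⟨U, u1, u2, u3⟩ := g7 ⟨j, hj⟩ (ε * ‖α‖) (mul_pos hε hn)
    refine ⟨U, u1, u2, ?_⟩
    rintro _ ⟨z, hz, rfl⟩
    have h1 := mem_ball_iff_norm.1 (u3 z hz)
    rw [dif_pos hj, dif_pos hj, mem_ball_iff_norm, ← sub_div, sub_sub_sub_cancel_right, norm_div,
      div_lt_iff₀ hn, add_mul, div_mul_cancel₀ _ hn.ne']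
    exact h1
  · have h1 := ht.div_const α
    rw [zero_div] at h1
    refine h1.congr fun z => ?_
    field_simp
    ring

end Vale.Agent.P116.L
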