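import Vale.Agent.P116.L.Sqr

/-! P116 L/Usc. (TASK) `usc`: off the `K j` use continuity of `g` on the open complement; on `K j` a ball `ball (a j) (r j + ε)` lies in `W` (`IsCompact.exists_thickening_subset_open`, `thickening_closedBall`), use `clu` and that the other `K i` are closed. `graph`: if `w ∉ Phi z`, apply `usc` to the complement of a small closed ball around `w`. `surj`: `img` and `ne`. `loc_bd`: `usc` gives local bounds, cover the compact ball (`IsCompact.induction_on` or `elim_nhds_subcover`). `prop`: `nrm` (`Metric.cocompact`/`hasBasis_cobounded_compl_closedBall`), the `K j` are bounded. Helper names start with `lus_`. -/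

open MeasureTheory Set Metric Filter Topology Complex
open scoped ENNReal ComplexConjugate Real

set_option linter.unusedSectionVars false

noncomputable section

namespace Vale.Agent.P116.L

open Vale.Agent.P116

variable {ι : Type} {s s' : Finset ι} {K S : ι → Set ℂ} {g h φ : ℂ → ℂ} {a ζ : ι → ℂ}
  {r σ : ι → ℝ} {V U A B E F : Set ℂ} {p e z w : ℂ} {t ρ R M η ε : ℝ}

theorem phi_of_not (hz : z ∉ ⋃ j ∈ s, K j) : Phi s K g a r z = {g z} := by
  ext w
  constructor
  · rintro (⟨-, h⟩ | ⟨j, hj, h, -⟩)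
    · exact h
    · exact (hz (mem_biUnion hj h)).elim
  · exact fun h => Or.inl ⟨hz, h⟩

theorem phi_of_mem (hK : Cont s K) {j : ι} (hj : j ∈ s) (hz : z ∈ K j) :
    Phi s K g a r z = closedBall (a j) (r j) := by
  ext w
  constructor
  · rintro (⟨h, -⟩ | ⟨i, hi, h, h'⟩)
    · exact (h (mem_biUnion hj hz)).elim
    · by_cases e : i = j
      · exact e ▸ h'
      · exact (disjoint_left.1 (hK.dis i hi j hj e) h hz).elim
  · exact fun h => Or.inr ⟨j, hj, hz, h⟩

theorem Circ.phi (hK : Cont s K) (h : Circ s K g a r) (z : ℂ) : (Phi s K g a r z).Nonempty ∧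
    Convex ℝ (Phi s K g a r z) ∧ IsCompact (Phi s K g a r z) := by
  by_cases hz : z ∈ ⋃ j ∈ s, K j
  · obtain ⟨j, hj, hz⟩ := mem_iUnion₂.1 hz
    rw [phi_of_mem hK hj hz]
    exact ⟨nonempty_closedBall.2 (h.nn j hj), convex_closedBall _ _, isCompact_closedBall _ _⟩
  · rw [phi_of_not hz]
    exact ⟨singleton_nonempty _, convex_singleton _, isCompact_singleton⟩

theorem Circ.usc (hK : Cont s K) (h : Circ s K g a r) (z : ℂ) {W : Set ℂ} (hW : IsOpen W)
    (hz : Phi s K g a r z ⊆ W) : ∀ᶠ z' in 𝓝 z, Phi s K g a r z' ⊆ W := by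
  by_cases hz' : z ∈ ⋃ j ∈ s, K j
  · obtain ⟨j, hj, hzj⟩ := mem_iUnion₂.1 hz'
    rw [phi_of_mem hK hj hzj] at hz
    obtain ⟨ε, hε, h1⟩ := (isCompact_closedBall (a j) (r j)).exists_thickening_subset_open hW hz
    rw [thickening_closedBall hε (h.nn j hj), add_comm] at h1
    obtain ⟨U, u1, u2, u3⟩ := h.clu j hj ε hε
    have ev : ∀ᶠ z' in 𝓝 z, ∀ i ∈ s, i ≠ j → z' ∉ K i := by
      refine (eventually_all_finset s).2 fun i hi => ?_
      by_cases e : i = j
      · exact Eventually.of_forall fun _ h => (h e).elim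
      · filter_upwards [(hK.cpt i hi).isClosed.isOpen_compl.mem_nhds
          (fun h => disjoint_left.1 (hK.dis i hi j hj e) h hzj)] with y hy _ using hy
    filter_upwards [ev, u1.mem_nhds (u2 hzj)] with y h2 h3
    rintro w (⟨h4, rfl⟩ | ⟨i, hi, h4, h5⟩)
    · exact h1 (u3 ⟨y, ⟨h3, h4⟩, rfl⟩)
    · by_cases e : i = j
      · exact hz (e ▸ h5)
      · exact (h2 i hi e h4).elim
  · rw [phi_of_not hz', singleton_subset_iff] at hz
    have ho : (⋃ j ∈ s, K j)ᶜ ∈ 𝓝 z :=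
      (isClosed_biUnion_finset fun j hj => (hK.cpt j hj).isClosed).isOpen_compl.mem_nhds hz'
    filter_upwards [ho, (h.hol.continuousOn.continuousAt ho).eventually (hW.mem_nhds hz)]
      with y h1 h2
    rw [phi_of_not h1, singleton_subset_iff]
    exact h2

theorem Circ.graph (hK : Cont s K) (h : Circ s K g a r) :
    IsClosed {q : ℂ × ℂ | q.2 ∈ Phi s K g a r q.1} := by
  refine isOpen_compl_iff.1 (isOpen_iff_mem_nhds.2 fun q hq => ?_)
  obtain ⟨ε, hε, h1⟩ := Metric.nhds_basis_closedBall.mem_iff.1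
    ((h.phi hK q.1).2.2.isClosed.isOpen_compl.mem_nhds hq)
  have h2 := h.usc hK q.1 (isClosed_closedBall (x := q.2) (ε := ε)).isOpen_compl
    (subset_compl_comm.1 h1)
  filter_upwards [continuous_fst.continuousAt.eventually h2,
    continuous_snd.continuousAt.eventually (closedBall_mem_nhds q.2 hε)] with y h3 h4 h5
  exact h3 h5 h4

theorem Circ.surj (hK : Cont s K) (h : Circ s K g a r) (w : ℂ) : ∃ z, w ∈ Phi s K g a r z := by
  by_cases hw : w ∈ ⋃ j ∈ s, closedBall (a j) (r j)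
  · obtain ⟨j, hj, hw⟩ := mem_iUnion₂.1 hw
    obtain ⟨z, hz⟩ := hK.ne j hj
    exact ⟨z, Or.inr ⟨j, hj, hz, hw⟩⟩
  · obtain ⟨z, hz, e⟩ := h.img.symm.subset hw
    exact ⟨z, Or.inl ⟨hz, e.symm⟩⟩

theorem Circ.loc_bd (hK : Cont s K) (h : Circ s K g a r) (R : ℝ) :
    ∃ R', ∀ z, ‖z‖ ≤ R → ∀ w ∈ Phi s K g a r z, ‖w‖ ≤ R' := by
  have key := (isCompact_closedBall (0 : ℂ) R).induction_on
    (p := fun T => ∃ R', ∀ z ∈ T, ∀ w ∈ Phi s K g a r z, ‖w‖ ≤ R') ⟨0, fun z hz => hz.elim⟩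
    (fun T T' hT ⟨R', h1⟩ => ⟨R', fun z hz => h1 z (hT hz)⟩)
    (fun T T' ⟨R1, h1⟩ ⟨R2, h2⟩ => ⟨max R1 R2, fun z hz w hw => hz.elim
      (fun hz => (h1 z hz w hw).trans (le_max_left _ _))
      fun hz => (h2 z hz w hw).trans (le_max_right _ _)⟩)
    (fun z _ => by
      obtain ⟨R', h1⟩ := (h.phi hK z).2.2.isBounded.subset_ball 0
      exact ⟨_, mem_nhdsWithin_of_mem_nhds (h.usc hK z isOpen_ball h1), R',
        fun y hy w hw => (mem_ball_zero_iff.1 (hy hw)).le⟩)
  obtain ⟨R', h1⟩ := key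
  exact ⟨R', fun z hz => h1 z (mem_closedBall_zero_iff.2 hz)⟩

theorem Circ.prop (hK : Cont s K) (h : Circ s K g a r) (R : ℝ) :
    ∃ R', ∀ z, ∀ w ∈ Phi s K g a r z, ‖w‖ ≤ R → ‖z‖ ≤ R' := by
  obtain ⟨T, hT, h1⟩ := mem_cocompact.1 (h.nrm (ball_mem_nhds 0 one_pos))
  obtain ⟨R1, h2⟩ := (hT.union (s.isCompact_biUnion hK.cpt)).isBounded.subset_closedBall 0
  refine ⟨max R1 (R + 1), fun z w hw hR => ?_⟩
  by_cases hz : z ∈ T ∪ ⋃ j ∈ s, K j
  · exact (mem_closedBall_zero_iff.1 (h2 hz)).trans (le_max_left _ _)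
  · rw [mem_union, not_or] at hz
    rw [phi_of_not hz.2, mem_singleton_iff] at hw
    have h3 : ‖g z - z‖ < 1 := mem_ball_zero_iff.1 (h1 hz.1)
    have h4 := norm_sub_norm_le z (g z)
    rw [norm_sub_rev, ← hw] at h4
    rw [← hw] at h3
    exact le_max_of_le_right (by linarith)

end Vale.Agent.P116.L
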