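import Vale.Agent.P116.L.Ord
import Vale.Agent.P116.L.Usc

/-! P116 L/Chain. (TASK) `T`, the union of the sets `pr e '' Phi (φ z)` over the sphere, is `OrdConnected` (`ord_usc` for `Ψ θ = pr e '' Phi (φ (circleMap p t θ))`, `X = univ`, `Circ.usc`, `range_circleMap`). It lies in the image in `len_img` and the intervals `pr_ball` of the squares that meet the sphere (`Sq.mem_iff`, `phi_of_mem`, `phi_of_not`, `Sq.hol_comp`). `chain0`: `Icc` of the two values lies in `T`. `chain1`: `Ioc (pr e (a j) + r j) (pr e w)` lies in `T` and misses the interval of `j`. `measure_biUnion_finset_le`, `Real.volume_Icc`. Helper names start with `lch_`. -/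

open MeasureTheory Set Metric Filter Topology Complex
open scoped ENNReal ComplexConjugate Real

set_option linter.unusedSectionVars false

noncomputable section

namespace Vale.Agent.P116.L

open Vale.Agent.P116

variable {ι : Type} {s s' : Finset ι} {K S : ι → Set ℂ} {g h φ : ℂ → ℂ} {a ζ : ι → ℂ}
  {r σ : ι → ℝ} {V U A B E F : Set ℂ} {p e z w : ℂ} {t ρ R M η ε : ℝ}

theorem lch_ord (hq : Sq V φ s ζ σ) (h : Circ s (Ks φ ζ σ) g a r) (ht : 0 < t)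
    (hs : sphere p t ⊆ V) (e : ℂ) :
    (⋃ θ ∈ (univ : Set ℝ), pr e '' Phi s (Ks φ ζ σ) g a r (φ (circleMap p t θ))).OrdConnected := by
  refine ord_usc isPreconnected_univ (fun θ _ => ?_) fun θ _ W hW hθ => ?_
  · obtain ⟨h1, h2, -⟩ := h.phi hq.cont (φ (circleMap p t θ))
    exact ⟨h1.image _, (h2.isPreconnected.image _ (pr_cont e).continuousOn).ordConnected⟩
  · have h1 := h.usc hq.cont (φ (circleMap p t θ)) (hW.preimage (pr_cont e))
      (image_subset_iff.1 hθ)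
    have h2 : ContinuousAt φ (circleMap p t θ) :=
      hq.hol.continuousOn.continuousAt (hq.op.mem_nhds (hs (circleMap_mem_sphere p ht.le θ)))
    have h3 : ContinuousAt (fun θ => φ (circleMap p t θ)) θ :=
      ContinuousAt.comp (f := circleMap p t) h2 (continuous_circleMap p t).continuousAt
    exact (h3.tendsto.eventually h1).mono fun θ' hθ' => image_subset_iff.2 hθ'

theorem lch_mem (ht : 0 < t) (hz : z ∈ sphere p t) {P : ℂ → Set ℂ} (hw : w ∈ P z) (e : ℂ) :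
    pr e w ∈ ⋃ θ ∈ (univ : Set ℝ), pr e '' P (circleMap p t θ) := by
  have h1 : z ∈ range (circleMap p t) := by
    rw [range_circleMap, abs_of_pos ht]
    exact hz
  obtain ⟨θ, rfl⟩ := h1
  exact mem_biUnion (mem_univ θ) (mem_image_of_mem _ hw)

theorem lch_cov (hq : Sq V φ s ζ σ) (h : Circ s (Ks φ ζ σ) g a r) (ht : 0 < t)
    (hs : sphere p t ⊆ V) (he : ‖e‖ = 1) {y : ℝ}
    (hy : y ∈ ⋃ θ ∈ (univ : Set ℝ), pr e '' Phi s (Ks φ ζ σ) g a r (φ (circleMap p t θ))) :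
    y ∈ (fun z => pr e ((g ∘ φ) z)) '' (sphere p t \ ⋃ j ∈ s, sqr (ζ j) (σ j)) ∨
      ∃ j ∈ s, (sqr (ζ j) (σ j) ∩ sphere p t).Nonempty ∧
        y ∈ Icc (pr e (a j) - r j) (pr e (a j) + r j) := by
  obtain ⟨θ, -, w, hw, rfl⟩ := mem_iUnion₂.1 hy
  have hz := circleMap_mem_sphere p ht.le θ
  rcases hw with ⟨h1, rfl⟩ | ⟨j, hj, h1, h2⟩
  · refine Or.inl ⟨_, ⟨hz, fun h2 => h1 ?_⟩, rfl⟩
    obtain ⟨j, hj, h2⟩ := mem_iUnion₂.1 h2
    exact mem_biUnion hj ((hq.mem_iff (hs hz) hj).2 h2)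
  · refine Or.inr ⟨j, hj, ⟨_, (hq.mem_iff (hs hz) hj).1 h1, hz⟩, ?_⟩
    rw [← pr_ball he _ (h.nn j hj)]
    exact mem_image_of_mem _ h2

theorem lch_meas (hq : Sq V φ s ζ σ) (h : Circ s (Ks φ ζ σ) g a r) (ht : 0 < t)
    (hs : sphere p t ⊆ V) (he : ‖e‖ = 1) (s' : Finset ι) {D : Set ℝ}
    (hD : ∀ y ∈ D,
      y ∈ (fun z => pr e ((g ∘ φ) z)) '' (sphere p t \ ⋃ j ∈ s, sqr (ζ j) (σ j)) ∨
      ∃ j ∈ s', (sqr (ζ j) (σ j) ∩ sphere p t).Nonempty ∧
        y ∈ Icc (pr e (a j) - r j) (pr e (a j) + r j)) :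
    volume D ≤
      Lt (g ∘ φ) (⋃ j ∈ s, sqr (ζ j) (σ j)) s' (fun j => sqr (ζ j) (σ j)) r p t := by
  classical
  have hA : IsClosed (⋃ j ∈ s, sqr (ζ j) (σ j)) :=
    isClosed_biUnion_finset fun j _ => (sqr_cpt _ _).isClosed
  have h1 : D ⊆ (fun z => pr e ((g ∘ φ) z)) '' (sphere p t \ ⋃ j ∈ s, sqr (ζ j) (σ j)) ∪
      ⋃ j ∈ s'.filter fun j => (sqr (ζ j) (σ j) ∩ sphere p t).Nonempty,
        Icc (pr e (a j) - r j) (pr e (a j) + r j) := fun y hy =>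
    (hD y hy).imp id fun ⟨j, hj, h2, h3⟩ => mem_biUnion (Finset.mem_filter.2 ⟨hj, h2⟩) h3
  refine (measure_mono h1).trans ((measure_union_le _ _).trans (add_le_add
    (len_img hA hq.op (hq.hol_comp h).2.1 ht hs he)
    ((measure_biUnion_finset_le _ _).trans (Finset.sum_le_sum fun j _ => ?_))))
  rw [Real.volume_Icc]
  exact ENNReal.ofReal_le_ofReal (by linarith)

theorem chain0 (hq : Sq V φ s ζ σ) (h : Circ s (Ks φ ζ σ) g a r) (ht : 0 < t)
    (hs : sphere p t ⊆ V) (he : ‖e‖ = 1) {z z' w w' : ℂ} (hz : z ∈ sphere p t)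
    (hz' : z' ∈ sphere p t) (hw : w ∈ Phi s (Ks φ ζ σ) g a r (φ z))
    (hw' : w' ∈ Phi s (Ks φ ζ σ) g a r (φ z')) : ENNReal.ofReal (pr e w - pr e w') ≤
      Lt (g ∘ φ) (⋃ j ∈ s, sqr (ζ j) (σ j)) s (fun j => sqr (ζ j) (σ j)) r p t := by
  rw [← Real.volume_Icc]
  exact lch_meas hq h ht hs he s fun y hy => lch_cov hq h ht hs he
    ((lch_ord hq h ht hs e).out
      (lch_mem (P := fun z => Phi s (Ks φ ζ σ) g a r (φ z)) ht hz' hw' e)
      (lch_mem (P := fun z => Phi s (Ks φ ζ σ) g a r (φ z)) ht hz hw e) hy)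

theorem chain1 [DecidableEq ι] (hq : Sq V φ s ζ σ) (h : Circ s (Ks φ ζ σ) g a r) (ht : 0 < t)
    (hs : sphere p t ⊆ V) (he : ‖e‖ = 1) {j : ι} (hj : j ∈ s)
    (hm : (sqr (ζ j) (σ j) ∩ sphere p t).Nonempty) (hz : z ∈ sphere p t)
    (hw : w ∈ Phi s (Ks φ ζ σ) g a r (φ z)) : ENNReal.ofReal (pr e w - (pr e (a j) + r j)) ≤
      Lt (g ∘ φ) (⋃ j ∈ s, sqr (ζ j) (σ j)) (s.erase j) (fun j => sqr (ζ j) (σ j)) r p t := by
  rw [← Real.volume_Ioc]
  obtain ⟨z', hz', hz''⟩ := hm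
  have h1 : a j ∈ Phi s (Ks φ ζ σ) g a r (φ z') :=
    Or.inr ⟨j, hj, mem_image_of_mem _ hz', mem_closedBall_self (h.nn j hj)⟩
  refine lch_meas hq h ht hs he _ fun y hy => ?_
  have h2 := h.nn j hj
  refine (lch_cov hq h ht hs he ((lch_ord hq h ht hs e).out
      (lch_mem (P := fun z => Phi s (Ks φ ζ σ) g a r (φ z)) ht hz'' h1 e)
      (lch_mem (P := fun z => Phi s (Ks φ ζ σ) g a r (φ z)) ht hz hw e)
      ⟨by linarith [hy.1], hy.2⟩)).imp id fun ⟨i, hi, h3, h4⟩ => ⟨i, ?_, h3, h4⟩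
  refine Finset.mem_erase.2 ⟨?_, hi⟩
  rintro rfl
  exact absurd h4.2 (not_le.2 hy.1)

end Vale.Agent.P116.L
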