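import Vale.Agent.P116.L.Defs

/-! P116 L/CmpB. (TASK) `fr_pt`: `mem_closure_iff_seq_limit`, the preimages are bounded, `tendsto_subseq_of_bounded`; a limit point off `E` would give `y ∈ g '' Eᶜ` by continuity. `sub_ball`: at a maximum point of `‖y - a‖` on `P` (value `> r`) one can not move outward, so it is a frontier point. `compl_cpt`: the image is open (`W.open_image`) and contains all `y` of large norm: with `E ⊆ ball 0 R`, the image of `Eᶜ` is closed in the preconnected set of `y` with `R + C < ‖y‖` (`fr_pt`; `W.out_con`). Helper names start with `lcb_`. -/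

open MeasureTheory Set Metric Filter Topology Complex
open scoped ENNReal ComplexConjugate Real

set_option linter.unusedSectionVars false

noncomputable section

namespace Vale.Agent.P116.L

open Vale.Agent.P116

variable {ι : Type} {s s' : Finset ι} {K S : ι → Set ℂ} {g h φ : ℂ → ℂ} {a ζ : ι → ℂ}
  {r σ : ι → ℝ} {V U A B E F : Set ℂ} {p e z w : ℂ} {t ρ R M η ε : ℝ}

theorem fr_pt (hE : IsCompact E) (hd : ContinuousOn g Eᶜ) {C : ℝ} (hC : ∀ z ∈ Eᶜ, ‖g z - z‖ ≤ C)
    {y : ℂ} (hy : y ∈ closure (g '' Eᶜ)) (hn : y ∉ g '' Eᶜ) : ∃ z ∈ E, ∃ x : ℕ → ℂ,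
      Tendsto x atTop (𝓝[Eᶜ] z) ∧ Tendsto (fun n => g (x n)) atTop (𝓝 y) := by
  obtain ⟨w, hw, hl⟩ := mem_closure_iff_seq_limit.1 hy
  choose x hx hg using hw
  obtain ⟨M, hM⟩ := (isBounded_range_of_tendsto _ hl).exists_norm_le
  have h1 : ∀ n, x n ∈ closedBall (0 : ℂ) (M + C) := fun n => by
    have h2 := hC _ (hx n)
    have h3 := hM _ ⟨n, rfl⟩
    have h4 := norm_sub_norm_le (x n) (g (x n))
    rw [norm_sub_rev, hg] at h4
    rw [hg] at h2
    rw [mem_closedBall_zero_iff]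
    linarith
  obtain ⟨z, -, k, hk, hz⟩ := tendsto_subseq_of_bounded isBounded_closedBall h1
  have h2 : Tendsto (x ∘ k) atTop (𝓝[Eᶜ] z) :=
    tendsto_nhdsWithin_iff.2 ⟨hz, Eventually.of_forall fun n => hx _⟩
  have h3 : Tendsto (fun n => g ((x ∘ k) n)) atTop (𝓝 y) :=
    (hl.comp hk.tendsto_atTop).congr fun n => (hg _).symm
  refine ⟨z, by_contra fun h => hn ⟨z, h, ?_⟩, x ∘ k, h2, h3⟩
  exact tendsto_nhds_unique ((hd z h).tendsto.comp h2) h3

theorem sub_ball {P : Set ℂ} (hP : IsCompact P) {a : ℂ} {r : ℝ} (hr : 0 ≤ r)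
    (h : frontier P ⊆ closedBall a r) : P ⊆ closedBall a r := by
  intro y hy
  rw [mem_closedBall_iff_norm]
  exact norm_le_of_forall_mem_frontier_norm_le (f := fun z : ℂ => z - a) hP.isBounded
    (differentiable_id.sub_const a).diffContOnCl (fun z hz => mem_closedBall_iff_norm.1 (h hz))
    (subset_closure hy)

theorem compl_cpt (hE : IsCompact E) (hd : DifferentiableOn ℂ g Eᶜ) (hi : InjOn g Eᶜ) {C : ℝ}
    (hC : ∀ z ∈ Eᶜ, ‖g z - z‖ ≤ C) : IsCompact (g '' Eᶜ)ᶜ := by
  have ho := W.open_image hE.isClosed.isOpen_compl hd hi hE.isClosed.isOpen_compl subset_rfl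
  obtain ⟨R, hR, hE'⟩ := hE.isBounded.subset_closedBall_lt 0 0
  have hC0 := abs_nonneg C
  have hC1 := le_abs_self C
  have h1 : {y : ℂ | R + |C| < ‖y‖} ⊆ g '' Eᶜ := by
    refine (W.out_con (by linarith)).subset_of_closure_inter_subset ho ?_ fun y hy => ?_
    · have h2 : ‖((R + 2 * |C| + 1 : ℝ) : ℂ)‖ = R + 2 * |C| + 1 := by
        rw [norm_real, Real.norm_of_nonneg (by linarith)]
      have h3 : ((R + 2 * |C| + 1 : ℝ) : ℂ) ∈ Eᶜ := fun h => by
        have := mem_closedBall_zero_iff.1 (hE' h)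
        linarith
      refine ⟨_, ?_, _, h3, rfl⟩
      have h4 := hC _ h3
      have h5 := norm_sub_norm_le ((R + 2 * |C| + 1 : ℝ) : ℂ) (g ((R + 2 * |C| + 1 : ℝ) : ℂ))
      rw [norm_sub_rev] at h5
      rw [mem_ofPred_eq]
      linarith
    · by_contra hn
      obtain ⟨z, hz, x, h2, h3⟩ := fr_pt hE hd.continuousOn hC hy.1 hn
      obtain ⟨h4, h5⟩ := tendsto_nhdsWithin_iff.1 h2
      have h6 : ‖y - z‖ ≤ C := le_of_tendsto (h3.sub h4).norm (h5.mono fun n hn => hC _ hn)
      have h7 := mem_closedBall_zero_iff.1 (hE' hz)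
      have h8 := norm_sub_norm_le y z
      have h9 : R + |C| < ‖y‖ := hy.2
      linarith
  refine isCompact_of_isClosed_isBounded ho.isClosed_compl
    ((isBounded_closedBall (x := (0 : ℂ)) (r := R + |C|)).subset fun y hy => ?_)
  exact mem_closedBall_zero_iff.2 (not_lt.1 fun h => hy (h1 h))

end Vale.Agent.P116.L
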