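import Vale.Agent.P116.L.CmpA
import Vale.Agent.P116.L.CmpB

/-! P116 L/Cmp. Let `P` be the component of `y`; it is compact (`compl_cpt`, `Cp.cpt`) and nonempty, so its frontier is nonempty (`isClopen_iff`, `frontier_eq_empty_iff`). A frontier point lies in the closure of the image (otherwise a ball around it lies in `P`), `fr_pt` gives `z ∈ E` and the point lies in `closedBall (c z) (q z)` by `clu`. For two frontier points the two `z` lie in one component of `E` (`sep_pts`: `ψ` is constant on `P`), `cst`; `sub_ball`; the ball lies in `P` (`IsPreconnected.subset_connectedComponentIn`, `off`). Helper names start with `lcm_`. -/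

open MeasureTheory Set Metric Filter Topology Complex
open scoped ENNReal ComplexConjugate Real

set_option linter.unusedSectionVars false

noncomputable section

namespace Vale.Agent.P116.L

open Vale.Agent.P116

variable {ι : Type} {s s' : Finset ι} {K S : ι → Set ℂ} {g h φ : ℂ → ℂ} {a ζ : ι → ℂ}
  {r σ : ι → ℝ} {V U A B E F : Set ℂ} {p e z w : ℂ} {t ρ R M η ε : ℝ}

theorem comp_ball (hE : IsCompact E) (hc : IsPreconnected Eᶜ) (hd : DifferentiableOn ℂ g Eᶜ)
    (hi : InjOn g Eᶜ) {C : ℝ} (hC : ∀ z ∈ Eᶜ, ‖g z - z‖ ≤ C) {c : ℂ → ℂ} {q : ℂ → ℝ}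
    (nn : ∀ z ∈ E, 0 ≤ q z)
    (clu : ∀ z ∈ E, ∀ ε : ℝ, 0 < ε → ∀ᶠ x in 𝓝[Eᶜ] z, ‖g x - c z‖ ≤ q z + ε)
    (off : ∀ z ∈ E, Disjoint (closedBall (c z) (q z)) (g '' Eᶜ))
    (cst : ∀ z ∈ E, ∀ z' ∈ connectedComponentIn E z, c z' = c z ∧ q z' = q z) {y : ℂ}
    (hy : y ∉ g '' Eᶜ) : ∃ (a : ℂ) (r : ℝ), 0 ≤ r ∧
      connectedComponentIn (g '' Eᶜ)ᶜ y = closedBall a r := by
  have hN : IsCompact (g '' Eᶜ)ᶜ := compl_cpt hE hd hi hC
  have hP : IsCompact (connectedComponentIn (g '' Eᶜ)ᶜ y) := (Cp.mk y hy).cpt hN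
  set P := connectedComponentIn (g '' Eᶜ)ᶜ y with hPd
  have hs : P ⊆ (g '' Eᶜ)ᶜ := connectedComponentIn_subset _ _
  have hfP : frontier P ⊆ P := hP.isClosed.frontier_subset
  have hsub : ∀ v ∈ P, ∀ B : Set ℂ, IsPreconnected B → v ∈ B → B ⊆ (g '' Eᶜ)ᶜ → B ⊆ P := by
    intro v hv B hB hvB hBN
    have := hB.subset_connectedComponentIn hvB hBN
    rwa [← connectedComponentIn_eq hv] at this
  have key : ∀ v ∈ frontier P, ∃ z ∈ E, ∃ x : ℕ → ℂ, Tendsto x atTop (𝓝[Eᶜ] z) ∧
      Tendsto (fun n => g (x n)) atTop (𝓝 v) ∧ v ∈ closedBall (c z) (q z) := by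
    intro v hv
    have h1 : v ∈ closure (g '' Eᶜ) := by
      by_contra hn
      obtain ⟨δ, hδ, hb⟩ := Metric.isOpen_iff.1 isClosed_closure.isOpen_compl v hn
      have h2 : ball v δ ⊆ P := hsub v (hfP hv) _ (convex_ball v δ).isPreconnected
        (mem_ball_self hδ) (hb.trans (compl_subset_compl.2 subset_closure))
      exact hv.2 (mem_interior_iff_mem_nhds.2 (mem_of_superset (ball_mem_nhds v hδ) h2))
    obtain ⟨z, hz, x, x1, x2⟩ := fr_pt hE hd.continuousOn hC h1 (hs (hfP hv))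
    refine ⟨z, hz, x, x1, x2, ?_⟩
    rw [mem_closedBall, dist_eq_norm]
    refine le_of_forall_pos_le_add fun ε hε => ?_
    exact le_of_tendsto (x2.sub_const (c z)).norm (x1.eventually (clu z hz ε hε))
  have hne : (frontier P).Nonempty := by
    rw [nonempty_iff_ne_empty]
    intro h
    rcases frontier_eq_empty_iff.1 h with h | h
    · exact (nonempty_of_mem (mem_connectedComponentIn hy : y ∈ P)).ne_empty h
    · exact noncompact_univ ℂ (h ▸ hP)
  obtain ⟨v, hv⟩ := hne
  obtain ⟨z, hz, x, x1, x2, x3⟩ := key v hv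
  refine ⟨c z, q z, nn z hz, subset_antisymm (sub_ball hP (nn z hz) fun v' hv' => ?_)
    (hsub v (hfP hv) _ (convex_closedBall _ _).isPreconnected x3
      (subset_compl_iff_disjoint_right.2 (off z hz)))⟩
  obtain ⟨z', hz', x', y1, y2, y3⟩ := key v' hv'
  have hm : z' ∈ connectedComponentIn E z := by
    by_contra hn
    obtain ⟨ψ, p1, p2, p3, p4⟩ := sep_pts hE hc hd hi hz hz' hn
    have e1 : ψ v = 1 := tendsto_nhds_unique ((p1.tendsto v).comp x2)
      (tendsto_const_nhds.congr' ((x1.eventually p3).mono fun n hn => hn.symm))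
    have e2 : ψ v' = 0 := tendsto_nhds_unique ((p1.tendsto v').comp y2)
      (tendsto_const_nhds.congr' ((y1.eventually p4).mono fun n hn => hn.symm))
    have e3 := p2 P isPreconnected_connectedComponentIn (subset_compl_iff_disjoint_right.1 hs)
      v (hfP hv) v' (hfP hv')
    rw [e1, e2] at e3
    exact one_ne_zero e3
  obtain ⟨e1, e2⟩ := cst z hz z' hm
  rwa [e1, e2] at y3

end Vale.Agent.P116.L
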