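import Vale.Agent.P116.L.Defs

/-! P116 L/CmpA. (TASK) `Cp.sat` for the component of `z` and `V` the complement of the component of `z'` (`Cp.cpt`, `Cp.ext_mem`) gives `U` with compact frontier off `E`. `S = cthickening δ (frontier U) ⊆ Eᶜ` (`IsCompact.exists_cthickening_subset_open`; `frontier U` may be treated also when empty), `χ` from `exists_continuous_zero_one_of_isClosed` for the closed sets `Uᶜ \ thickening δ (frontier U)` and `closure U \ thickening δ (frontier U)`; `sep_lift` with `O = Eᶜ`, `W.open_image`. See P116 `S/TopA` (`Pre.sepU`). Helper names start with `lca_`. -/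

open MeasureTheory Set Metric Filter Topology Complex
open scoped ENNReal ComplexConjugate Real

set_option linter.unusedSectionVars false

noncomputable section

namespace Vale.Agent.P116.L

open Vale.Agent.P116

variable {ι : Type} {s s' : Finset ι} {K S : ι → Set ℂ} {g h φ : ℂ → ℂ} {a ζ : ι → ℂ}
  {r σ : ι → ℝ} {V U A B E F : Set ℂ} {p e z w : ℂ} {t ρ R M η ε : ℝ}

theorem sep_pts (hE : IsCompact E) (hc : IsPreconnected Eᶜ) (hd : DifferentiableOn ℂ g Eᶜ)
    (hi : InjOn g Eᶜ) {z z' : ℂ} (hz : z ∈ E) (hz' : z' ∈ E) (hn : z' ∉ connectedComponentIn E z) :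
    ∃ ψ : ℂ → ℝ, Continuous ψ ∧ (∀ P, IsPreconnected P → Disjoint P (g '' Eᶜ) →
      ∀ y ∈ P, ∀ y' ∈ P, ψ y = ψ y') ∧ (∀ᶠ x in 𝓝[Eᶜ] z, ψ (g x) = 1) ∧
        ∀ᶠ x in 𝓝[Eᶜ] z', ψ (g x) = 0 := by
  obtain ⟨U, hU, u2, u3, u4, hf⟩ := (Cp.mk z hz).sat hE
    ((Cp.mk z' hz').cpt hE).isClosed.isOpen_compl fun x hx hx' => hn (by
      have h1 := Cp.mem_mk z' hz'
      rw [← Cp.ext_mem hx hx'] at h1
      exact h1)
  obtain ⟨U₁, h1, h2, h3, -⟩ := exists_open_between_and_isCompact_closure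
    (hE.inter_right (isClosed_closure (s := U))) hU fun x hx => by
      by_contra hn
      exact Set.disjoint_left.1 hf (hU.frontier_eq ▸ ⟨hx.2, hn⟩) hx.1
  obtain ⟨χ, χ0, χ1, -⟩ := exists_continuous_zero_one_of_isClosed hU.isClosed_compl
    (isClosed_closure (s := U₁)) (Set.disjoint_left.2 fun x hx hx' => hx (h3 hx'))
  have hS : closure U \ U₁ ⊆ Eᶜ := fun x hx he => hx.2 (h2 ⟨he, hx.1⟩)
  have hO := hE.isClosed.isOpen_compl
  obtain ⟨ψ, c1, c2, c3⟩ := sep_lift (χ := χ) hO hc hd.continuousOn hi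
    (fun V => W.open_image hO hd hi) (u4.diff h1) hS χ.continuous.continuousOn fun x hx => by
      by_cases h4 : x ∈ U₁
      · exact Or.inr (χ1 (subset_closure h4))
      · exact Or.inl (χ0 fun h5 => hx.2 ⟨subset_closure h5, h4⟩)
  refine ⟨ψ, c1, fun P hP hD => c3 P hP (hD.mono_right (image_mono hS)), ?_, ?_⟩
  · filter_upwards [self_mem_nhdsWithin, mem_nhdsWithin_of_mem_nhds
      (h1.mem_nhds (h2 ⟨hz, subset_closure (u2 (Cp.mem_mk z hz))⟩))] with x k1 k2
    exact (c2 x k1).trans (χ1 (subset_closure k2))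
  · filter_upwards [self_mem_nhdsWithin, mem_nhdsWithin_of_mem_nhds
      ((isClosed_closure (s := U)).isOpen_compl.mem_nhds fun k => u3 k (Cp.mem_mk z' hz'))] with x k1 k2
    exact (c2 x k1).trans (χ0 fun k => k2 (subset_closure k))

end Vale.Agent.P116.L
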