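import Vale.Agent.P116.L.Defs
import Vale.Agent.P116.T.Lift

/-! P116 L/Cnn: the complement of finitely many components is connected. -/

open MeasureTheory Set Metric Filter Topology Complex
open scoped ENNReal ComplexConjugate Real

set_option linter.unusedSectionVars false

noncomputable section

namespace Vale.Agent.P116.L

open Vale.Agent.P116

variable {ι : Type} {s s' : Finset ι} {K S : ι → Set ℂ} {g h φ : ℂ → ℂ} {a ζ : ι → ℂ}
  {r σ : ι → ℝ} {V U A B E F : Set ℂ} {p e z w : ℂ} {t ρ R M η ε : ℝ}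

theorem Glob.con {ζ : Cp F → ℂ} {σ : Cp F → ℝ} (hG : Glob V φ F ζ σ R)
    (hc : IsPreconnected (φ '' F)ᶜ) (s : Finset (Cp F)) :
    IsPreconnected (⋃ j ∈ s, Ks φ ζ σ j)ᶜ := by
  have hs : ∀ j : Cp F, Ks φ ζ σ j = φ '' j.1 := fun j => by rw [hG.eq j]; rfl
  have h1 : (φ '' F)ᶜ ⊆ (⋃ j ∈ s, Ks φ ζ σ j)ᶜ := compl_subset_compl.2
    (iUnion₂_subset fun j _ => by rw [hs]; exact image_mono j.sub)
  have h2 : IsPreconnected (closure (φ '' F)ᶜ ∩ (⋃ j ∈ s, Ks φ ζ σ j)ᶜ) :=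
    hc.subset_closure (subset_inter subset_closure h1) inter_subset_left
  have h0 : (R : ℂ) ∈ (φ '' F)ᶜ := fun h => by
    have h3 := mem_ball_zero_iff.1 (hG.bd h)
    rw [norm_real, Real.norm_of_nonneg hG.pos.le] at h3
    exact lt_irrefl _ h3
  refine isPreconnected_of_forall (R : ℂ) fun y hy => ?_
  by_cases h3 : y ∈ φ '' F
  · obtain ⟨p, hp, rfl⟩ := h3
    obtain ⟨q, q1, q2⟩ := comp_clo hG.cpt hp
    have q3 : q ∈ (Cp.mk p hp).1 := q1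
    have q4 : φ '' (Cp.mk p hp).1 ⊆ (⋃ j ∈ s, Ks φ ζ σ j)ᶜ := by
      rintro _ ⟨x, hx, rfl⟩ h4
      obtain ⟨j, hj, h5⟩ := mem_iUnion₂.1 h4
      rw [hs] at h5
      obtain ⟨x', k1, k2⟩ := h5
      have k3 : x' = x := hG.inj (hG.sub (j.sub k1)) (hG.sub ((Cp.mk p hp).sub hx)) k2
      refine hy (mem_iUnion₂.2 ⟨j, hj, ?_⟩)
      have k4 : j = Cp.mk p hp := Cp.ext_mem (z := x) (k3 ▸ k1) hx
      rw [hs, k4]
      exact ⟨p, Cp.mem_mk p hp, rfl⟩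
    have q5 := hG.sub ((Cp.mk p hp).sub q3)
    have q6 : φ q ∈ closure (φ '' F)ᶜ :=
      ((hG.hol.continuousOn q q5).mono inter_subset_left).mem_closure
        (hG.op.inter_closure ⟨q5, q2⟩) fun x hx ⟨x', k1, k2⟩ =>
          hx.2 (hG.inj (hG.sub k1) hx.1 k2 ▸ k1)
    exact ⟨_, union_subset inter_subset_right q4, Or.inl ⟨subset_closure h0, h1 h0⟩,
      Or.inr ⟨p, Cp.mem_mk p hp, rfl⟩, h2.union (φ q) ⟨q6, q4 ⟨q, q3, rfl⟩⟩ ⟨q, q3, rfl⟩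
        ((Cp.mk p hp).pre.image φ (hG.hol.continuousOn.mono ((Cp.mk p hp).sub.trans hG.sub)))⟩
  · exact ⟨_, inter_subset_right, ⟨subset_closure h0, h1 h0⟩, ⟨subset_closure h3, hy⟩, h2⟩

end Vale.Agent.P116.L
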