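import Vale.Agent.P116.S.Sat
import Vale.Agent.P116.S.Sep
import Vale.Agent.P116.W.Bas

/-! P116 L/Defs. Definitions for the limit of finitely connected circle domains (owner helper63, no task). -/

open MeasureTheory Set Metric Filter Topology Complex
open scoped ENNReal ComplexConjugate Real

set_option linter.unusedSectionVars false

noncomputable section

namespace Vale.Agent.P116.L

open Vale.Agent.P116

variable {ι : Type}

/-- `g` maps the complement of the sets `K j` onto the complement of the discs. -/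
structure Circ (s : Finset ι) (K : ι → Set ℂ) (g : ℂ → ℂ) (a : ι → ℂ) (r : ι → ℝ) : Prop where
  hol : DifferentiableOn ℂ g (⋃ j ∈ s, K j)ᶜ
  inj : InjOn g (⋃ j ∈ s, K j)ᶜ
  img : g '' (⋃ j ∈ s, K j)ᶜ = (⋃ j ∈ s, closedBall (a j) (r j))ᶜ
  nn : ∀ j ∈ s, 0 ≤ r j
  dis : ∀ i ∈ s, ∀ j ∈ s, i ≠ j → Disjoint (closedBall (a i) (r i)) (closedBall (a j) (r j))
  clu : ∀ j ∈ s, ∀ ε : ℝ, 0 < ε → ∃ U, IsOpen U ∧ K j ⊆ U ∧
    g '' (U \ ⋃ j ∈ s, K j) ⊆ ball (a j) (r j + ε)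
  nrm : Tendsto (fun z => g z - z) (cocompact ℂ) (𝓝 0)

/-- Finitely many disjoint continua. -/
structure Cont (s : Finset ι) (K : ι → Set ℂ) : Prop where
  ne : ∀ j ∈ s, (K j).Nonempty
  cpt : ∀ j ∈ s, IsCompact (K j)
  con : ∀ j ∈ s, IsPreconnected (K j)
  dis : ∀ i ∈ s, ∀ j ∈ s, i ≠ j → Disjoint (K i) (K j)

/-- The map `g` with the disc as value on `K j`. -/
def Phi (s : Finset ι) (K : ι → Set ℂ) (g : ℂ → ℂ) (a : ι → ℂ) (r : ι → ℝ) (z : ℂ) : Set ℂ :=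
  {w | (z ∉ ⋃ j ∈ s, K j ∧ w = g z) ∨ ∃ j ∈ s, z ∈ K j ∧ w ∈ closedBall (a j) (r j)}

/-- Finitely many disjoint squares in the domain of a univalent map. -/
structure Sq (V : Set ℂ) (φ : ℂ → ℂ) (s : Finset ι) (ζ : ι → ℂ) (σ : ι → ℝ) : Prop where
  op : IsOpen V
  hol : DifferentiableOn ℂ φ V
  inj : InjOn φ V
  pos : ∀ j ∈ s, 0 < σ j
  sub : ∀ j ∈ s, sqr (ζ j) (σ j) ⊆ V
  dis : ∀ i ∈ s, ∀ j ∈ s, i ≠ j → Disjoint (sqr (ζ i) (σ i)) (sqr (ζ j) (σ j))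

/-- The images of the squares. -/
def Ks (φ : ℂ → ℂ) (ζ : ι → ℂ) (σ : ι → ℝ) (j : ι) : Set ℂ := φ '' sqr (ζ j) (σ j)

/-- The theorem of Koebe for finitely many conformal squares. -/
def KoebeFin : Prop := ∀ (ι : Type) (V : Set ℂ) (φ : ℂ → ℂ) (s : Finset ι) (ζ : ι → ℂ)
  (σ : ι → ℝ), Sq V φ s ζ σ → IsPreconnected (⋃ j ∈ s, Ks φ ζ σ j)ᶜ →
    ∃ g a r, Circ s (Ks φ ζ σ) g a r

/-- The linear functional in the direction `e`. -/
def pr (e w : ℂ) : ℝ := (conj e * w).re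

/-- The length of the image of the part of a circle outside `A`. -/
def Ln (h : ℂ → ℂ) (A : Set ℂ) (p : ℂ) (t : ℝ) : ℝ≥0∞ :=
  ∫⁻ θ in Ioo (-π) π, ENNReal.ofReal t * Aᶜ.indicator (fun z => ‖deriv h z‖ₑ) (circleMap p t θ)

open Classical in
/-- The transboundary length. -/
def Lt (h : ℂ → ℂ) (A : Set ℂ) (s : Finset ι) (S : ι → Set ℂ) (r : ι → ℝ) (p : ℂ) (t : ℝ) :
    ℝ≥0∞ :=
  Ln h A p t + ∑ j ∈ s.filter fun j => (S j ∩ sphere p t).Nonempty, ENNReal.ofReal (2 * r j)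

open Classical in
/-- The transboundary energy in `B`. -/
def En (h : ℂ → ℂ) (A : Set ℂ) (s : Finset ι) (S : ι → Set ℂ) (r : ι → ℝ) (B : Set ℂ) : ℝ≥0∞ :=
  (∫⁻ z in B \ A, ‖deriv h z‖ₑ ^ 2) +
    ∑ j ∈ s.filter fun j => (S j ∩ B).Nonempty, ENNReal.ofReal (r j) ^ 2

/-- A closed annulus. -/
def ann (p : ℂ) (ρ : ℝ) : Set ℂ := closedBall p (2 * ρ) \ ball p ρ

/-- A compact set whose components are squares or points, in the domain of a univalent map. -/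
structure Glob (V : Set ℂ) (φ : ℂ → ℂ) (F : Set ℂ) (ζ : Cp F → ℂ) (σ : Cp F → ℝ) (R : ℝ) :
    Prop where
  op : IsOpen V
  hol : DifferentiableOn ℂ φ V
  inj : InjOn φ V
  cpt : IsCompact F
  sub : F ⊆ V
  nn : ∀ c, 0 ≤ σ c
  eq : ∀ c, c.1 = sqr (ζ c) (σ c)
  pos : 0 < R
  bd : φ '' F ⊆ ball 0 R

end Vale.Agent.P116.L
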