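import Vale.Agent.P116.L.Defs

/-! P116 L/Lim. (TASK) `P071.montel` for `(g n z - z) / (C + 1)` with the ultrafilter `Ultrafilter.of atTop` of `UF`; `TendstoLocallyUniformlyOn.differentiableOn`. `G` is nowhere locally constant (identity theorem on the preconnected unbounded set, `‖G z - z‖ ≤ C`). `P071.hurwitz` for `g n - w n` (replace the bad `n` by a fixed good zero-free function such as `1`, or change `g n`, `w n` on a `UF`-null set) gives the last clause; injectivity: the same on `U \ {z₀}` or on a small ball around the second point with `w n = g n z₀`. Helper names start with `lli_`. -/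

open MeasureTheory Set Metric Filter Topology Complex
open scoped ENNReal ComplexConjugate Real

set_option linter.unusedSectionVars false

noncomputable section

namespace Vale.Agent.P116.L

open Vale.Agent.P116

variable {ι : Type} {s s' : Finset ι} {K S : ι → Set ℂ} {g h φ : ℂ → ℂ} {a ζ : ι → ℂ}
  {r σ : ι → ℝ} {V U A B E F : Set ℂ} {p e z w : ℂ} {t ρ R M η ε : ℝ}

theorem lli_mon (hU : IsOpen U) {g : ℕ → ℂ → ℂ} (hd : ∀ n, DifferentiableOn ℂ (g n) U) {C : ℝ}
    (hC : ∀ n, ∀ z ∈ U, ‖g n z - z‖ ≤ C) : ∃ G : ℂ → ℂ, TendstoLocallyUniformlyOn g G UF U := by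
  have h0 : 0 < |C| + 1 := by positivity
  have h1 : ((|C| + 1 : ℝ) : ℂ) ≠ 0 := ofReal_ne_zero.2 h0.ne'
  obtain ⟨H, hH⟩ := P071.RMT.montel hU (fun n z => (g n z - z) / ((|C| + 1 : ℝ) : ℂ))
    (fun n => ((hd n).sub differentiableOn_id).div_const _) (fun n z hz => by
      rw [mem_ball_zero_iff, norm_div, Complex.norm_real, Real.norm_of_nonneg h0.le, div_lt_one h0]
      linarith [hC n z hz, le_abs_self C]) (Ultrafilter.of atTop)
  have h2 : UniformContinuous fun y : ℂ => ((|C| + 1 : ℝ) : ℂ) • y := uniformContinuous_const_smul _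
  have h3 : TendstoLocallyUniformlyOn (fun (_ : ℕ) (z : ℂ) => z) (fun z => z) UF U :=
    Metric.tendstoLocallyUniformlyOn_iff.2 fun ε hε x _ => ⟨univ, univ_mem,
      Eventually.of_forall fun n y _ => by rwa [dist_self]⟩
  refine ⟨_, ((h2.comp_tendstoLocallyUniformlyOn hH).add h3).congr fun n z _ => ?_⟩
  simp only [Pi.add_apply, Function.comp_apply, smul_eq_mul]
  rw [mul_div_cancel₀ _ h1, sub_add_cancel]

theorem lli_hur (hU : IsOpen U) {g : ℕ → ℂ → ℂ} (hd : ∀ n, DifferentiableOn ℂ (g n) U)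
    {G : ℂ → ℂ} (ht : TendstoLocallyUniformlyOn g G UF U) {v : ℕ → ℂ} {y : ℂ}
    (hv : Tendsto v UF (𝓝 y)) (hn : ∀ᶠ n in UF, v n ∉ g n '' U) (hz : z ∈ U) (hy : G z = y) :
    ∀ᶠ x in 𝓝 z, G x = y := by
  classical
  have := UF_ne
  have h1 := ht.sub (hv.tendstoUniformlyOn_const U).tendstoLocallyUniformlyOn
  have h2 : TendstoLocallyUniformlyOn
      (fun n x => if v n ∉ g n '' U then g n x - v n else 1) (fun x => G x - y) UF U :=
    h1.congr_inseparable (hn.mono fun n h x _ => .of_eq (if_pos h).symm)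
  refine (P071.RMT.hurwitz hU (fun n => ?_) (fun n x hx => ?_) h2 hz (sub_eq_zero.2 hy)).mono
    fun x hx => sub_eq_zero.1 hx
  · by_cases h : v n ∉ g n '' U
    · simp only [if_pos h]
      exact (hd n).sub_const _
    · simp only [if_neg h]
      exact differentiableOn_const _
  · by_cases h : v n ∉ g n '' U
    · rw [if_pos h]
      exact sub_ne_zero.2 fun e => h ⟨x, hx, e⟩
    · rw [if_neg h]
      exact one_ne_zero

theorem lli_nc (hU : IsOpen U) (hc : IsPreconnected U) (hb : Bornology.IsBounded Uᶜ) {G : ℂ → ℂ}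
    (hd : DifferentiableOn ℂ G U) {C : ℝ} (hC : ∀ z ∈ U, ‖G z - z‖ ≤ C) (hz : z ∈ U) {y : ℂ}
    (hy : ∀ᶠ x in 𝓝 z, G x = y) : False := by
  have h1 : EqOn G (fun _ => y) U := (hd.analyticOnNhd hU).eqOn_of_preconnected_of_eventuallyEq
    analyticOnNhd_const hc hz hy
  have h2 : U ⊆ closedBall y C := fun x hx => by
    have h3 := hC x hx
    rw [h1 hx] at h3
    rwa [mem_closedBall, dist_comm, dist_eq_norm]
  have h3 := (isBounded_closedBall.subset h2).union hb
  rw [union_compl_self] at h3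
  exact NormedSpace.unbounded_univ ℝ ℂ h3

theorem lim_univ (hU : IsOpen U) (hc : IsPreconnected U) (hb : Bornology.IsBounded Uᶜ)
    {g : ℕ → ℂ → ℂ} (hd : ∀ n, DifferentiableOn ℂ (g n) U) (hi : ∀ n, InjOn (g n) U) {C : ℝ}
    (hC : ∀ n, ∀ z ∈ U, ‖g n z - z‖ ≤ C) : ∃ G : ℂ → ℂ, DifferentiableOn ℂ G U ∧ InjOn G U ∧
      (∀ z ∈ U, ‖G z - z‖ ≤ C) ∧ (∀ z ∈ U, Tendsto (fun n => g n z) UF (𝓝 (G z))) ∧
        ∀ (v : ℕ → ℂ) (y : ℂ), Tendsto v UF (𝓝 y) → (∀ᶠ n in UF, v n ∉ g n '' U) → y ∉ G '' U := by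
  have := UF_ne
  obtain ⟨G, ht⟩ := lli_mon hU hd hC
  have h1 : DifferentiableOn ℂ G U := ht.differentiableOn (Eventually.of_forall hd) hU
  have h2 : ∀ z ∈ U, ‖G z - z‖ ≤ C := fun z hz =>
    le_of_tendsto' ((ht.tendsto_at hz).sub_const z).norm fun n => hC n z hz
  refine ⟨G, h1, fun x hx y hy e => ?_, h2, fun z hz => ht.tendsto_at hz, ?_⟩
  · by_contra hne
    refine lli_nc hU hc hb h1 h2 hx (lli_hur (U := U \ {y}) (hU.sdiff isClosed_singleton)
      (fun n => (hd n).mono sdiff_subset) (ht.mono sdiff_subset) (ht.tendsto_at hy)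
      (Eventually.of_forall fun n => ?_) ⟨hx, hne⟩ e)
    rintro ⟨w, hw, e'⟩
    exact hw.2 (hi n hw.1 hy e')
  · rintro v y hv hn ⟨z, hz, e⟩
    exact lli_nc hU hc hb h1 h2 hz (lli_hur hU hd ht hv hn hz e)

end Vale.Agent.P116.L
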