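import Vale.Agent.P116.L.KeyB
import Vale.Agent.P116.L.Lim
import Vale.Agent.P116.L.Cnn

/-! P116 L/Fam. (TASK) `s n = (fin_big ..).toFinset` for `ε = 1 / (n + 1)`; `hK` and `Glob.sq` give `g n, a n, r n`; `Circ.bound`, `lim_univ` on `(φ '' F)ᶜ` with `C = 5 * R`. For a component `c` put `A n = if c ∈ s n then a n c else g n (φ (ζ c))`, `Q n = if c ∈ s n then r n c else 0`; `closedBall (A n) (Q n) = Phi (φ (ζ c))` lies in `closedBall 0 (3 * R)`, so both converge along `UF` (`IsCompact.ultrafilter_le_nhds`, `isCompact_closedBall`, `isCompact_Icc`). If `0 < σ c` then `c ∈ s n` eventually (`UF_le`), if `σ c = 0` never and `c = {ζ c}` (`sqr_zero`). `Glob.key` passes to the limit (`le_of_tendsto`). Off: for `y` in the limit ball take `v n = A n + (Q n / Q) * (y - A)` (`v n = A n` if `Q = 0`); `v n ∉ g n '' (φ '' F)ᶜ` by `img` or `inj`. Helper names start with `lfm_`. -/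

open MeasureTheory Set Metric Filter Topology Complex
open scoped ENNReal ComplexConjugate Real

set_option linter.unusedSectionVars false

noncomputable section

namespace Vale.Agent.P116.L

open Vale.Agent.P116

variable {ι : Type} {s s' : Finset ι} {K S : ι → Set ℂ} {g h φ : ℂ → ℂ} {a ζ : ι → ℂ}
  {r σ : ι → ℝ} {V U A B E F : Set ℂ} {p e z w : ℂ} {t ρ R M η ε : ℝ}

theorem lfm_lim {X : Type} [TopologicalSpace X] {T : Set X} (hT : IsCompact T) {x : ℕ → X}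
    (h : ∀ n, x n ∈ T) : ∃ y ∈ T, Tendsto x UF (𝓝 y) :=
  hT.ultrafilter_le_nhds ((Ultrafilter.of atTop).map x)
    (tendsto_principal.2 (Eventually.of_forall h))

theorem lfm_ball {A : ℕ → ℂ} {Q : ℕ → ℝ} {A₀ y : ℂ} {Q₀ : ℝ} (hA : Tendsto A UF (𝓝 A₀))
    (hQ : Tendsto Q UF (𝓝 Q₀)) (h0 : ∀ n, 0 ≤ Q n) (hy : y ∈ closedBall A₀ Q₀) :
    ∃ v : ℕ → ℂ, Tendsto v UF (𝓝 y) ∧ ∀ n, v n ∈ closedBall (A n) (Q n) := by
  rw [mem_closedBall, dist_eq_norm] at hy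
  rcases ((norm_nonneg _).trans hy).eq_or_lt with h | h
  · refine ⟨A, ?_, fun n => mem_closedBall_self (h0 n)⟩
    rw [← h, norm_le_zero_iff, sub_eq_zero] at hy
    rwa [hy]
  · refine ⟨fun n => A n + ((Q n / Q₀ : ℝ) : ℂ) * (y - A₀), ?_, fun n => ?_⟩
    · have h1 := hA.add (((continuous_ofReal.tendsto _).comp (hQ.div_const Q₀)).mul_const (y - A₀))
      rwa [div_self h.ne', ofReal_one, one_mul, add_sub_cancel] at h1
    · rw [mem_closedBall, dist_eq_norm, add_sub_cancel_left, norm_mul, norm_real,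
        Real.norm_of_nonneg (div_nonneg (h0 n) h.le), div_mul_eq_mul_div, div_le_iff₀ h]
      exact mul_le_mul_of_nonneg_left hy (h0 n)

theorem lfm_one {ζ : Cp F → ℂ} {σ : Cp F → ℝ} (hG : Glob V φ F ζ σ R) {s : Finset (Cp F)}
    (hs : ∀ j ∈ s, 0 < σ j) {a : Cp F → ℂ} {r : Cp F → ℝ} (h : Circ s (Ks φ ζ σ) g a r)
    (c : Cp F) : ∃ (A : ℂ) (Q : ℝ), A ∈ closedBall (0 : ℂ) (3 * R) ∧ Q ∈ Icc 0 (6 * R) ∧
      Disjoint (closedBall A Q) (g '' (φ '' F)ᶜ) ∧ (c ∈ s → A = a c ∧ Q = r c) ∧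
        (c ∉ s → A = g (φ (ζ c)) ∧ Q = 0) := by
  obtain ⟨hq, hb⟩ := hG.sq hs
  have h1 : ζ c ∈ c.1 := by
    rw [hG.eq c]
    exact sqr_self _ (hG.nn c)
  have h2 : φ (ζ c) ∈ φ '' F := mem_image_of_mem _ (c.sub h1)
  have h3 := mem_ball_zero_iff.1 (hG.bd h2)
  have h4 := hG.pos
  have h5 := (h.bound hq.cont hG.pos hb).1 (φ (ζ c)) (by linarith)
  have hU : (φ '' F)ᶜ ⊆ (⋃ j ∈ s, Ks φ ζ σ j)ᶜ :=
    compl_subset_compl.2 (iUnion₂_subset fun j _ => image_mono (hG.eq j ▸ j.sub))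
  by_cases hc : c ∈ s
  · rw [phi_of_mem hq.cont hc (mem_image_of_mem _ (sqr_self _ (hG.nn c)))] at h5
    have r0 := h.nn c hc
    have h6 := h5 _ (mem_closedBall_self r0)
    have h7 := h5 (a c + r c) (by
      rw [mem_closedBall, dist_eq_norm, add_sub_cancel_left, norm_real, Real.norm_of_nonneg r0])
    have h8 := norm_sub_le (a c + r c) (a c)
    rw [add_sub_cancel_left, norm_real, Real.norm_of_nonneg r0] at h8
    refine ⟨a c, r c, mem_closedBall_zero_iff.2 h6, ⟨r0, by linarith⟩,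
      disjoint_left.2 fun y hy hy' => ?_, fun _ => ⟨rfl, rfl⟩, fun hn => (hn hc).elim⟩
    have h9 := image_mono hU hy'
    rw [h.img] at h9
    exact h9 (mem_iUnion₂.2 ⟨c, hc, hy⟩)
  · have h6 : φ (ζ c) ∉ ⋃ j ∈ s, Ks φ ζ σ j := fun h7 => by
      obtain ⟨j, hj, h8⟩ := mem_iUnion₂.1 h7
      rw [hq.mem_iff (hG.sub (c.sub h1)) hj, ← hG.eq j] at h8
      exact hc (Cp.ext_mem h1 h8 ▸ hj)
    rw [phi_of_not h6] at h5
    refine ⟨g (φ (ζ c)), 0, mem_closedBall_zero_iff.2 (h5 _ rfl), ⟨le_rfl, by linarith⟩,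
      disjoint_left.2 ?_, fun hn => (hc hn).elim, fun _ => ⟨rfl, rfl⟩⟩
    rintro _ hy ⟨y, hy', rfl⟩
    rw [closedBall_zero, mem_singleton_iff] at hy
    exact hy' (h.inj (hU hy') h6 hy ▸ h2)

theorem Glob.fam (hK : KoebeFin) {ζ : Cp F → ℂ} {σ : Cp F → ℝ} (hG : Glob V φ F ζ σ R)
    (hc : IsPreconnected (φ '' F)ᶜ) : ∃ (G : ℂ → ℂ) (A : Cp F → ℂ) (Q : Cp F → ℝ),
      DifferentiableOn ℂ G (φ '' F)ᶜ ∧ InjOn G (φ '' F)ᶜ ∧ (∀ z ∈ (φ '' F)ᶜ, ‖G z - z‖ ≤ 5 * R) ∧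
      (∀ c, 0 ≤ Q c ∧ Disjoint (closedBall (A c) (Q c)) (G '' (φ '' F)ᶜ)) ∧
      ∀ (c : Cp F), ∀ p ∈ c.1, ∀ ε : ℝ, 0 < ε → ∃ δ, 0 < δ ∧ ∀ z ∈ ball p δ, φ z ∉ φ '' F →
        ‖G (φ z) - A c‖ ≤ Q c + ε := by
  have := UF_ne
  have hsub : ∀ j, sqr (ζ j) (σ j) ⊆ F := fun j => hG.eq j ▸ j.sub
  obtain ⟨s, hs⟩ : ∃ s : ℕ → Finset (Cp F), ∀ n j, j ∈ s n ↔ 1 / ((n : ℝ) + 1) ≤ σ j :=
    ⟨fun n => (fin_big hG.dis hG.cpt.isBounded hsub Nat.one_div_pos_of_nat).toFinset,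
      fun n j => Finite.mem_toFinset _⟩
  have pos : ∀ n, ∀ j ∈ s n, 0 < σ j := fun n j hj =>
    Nat.one_div_pos_of_nat.trans_le ((hs n j).1 hj)
  choose g a r hC using fun n => hK _ V φ (s n) ζ σ (hG.sq (pos n)).1 (hG.con hc (s n))
  have cF : IsCompact (φ '' F) := hG.cpt.image_of_continuousOn (hG.hol.continuousOn.mono hG.sub)
  have hU : ∀ n, (φ '' F)ᶜ ⊆ (⋃ j ∈ s n, Ks φ ζ σ j)ᶜ := fun n =>
    compl_subset_compl.2 (iUnion₂_subset fun j _ => image_mono (hsub j))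
  obtain ⟨G, g1, g2, g3, g4, g5⟩ := lim_univ cF.isClosed.isOpen_compl hc
    (by rw [compl_compl]; exact cF.isBounded) (fun n => (hC n).hol.mono (hU n))
    (fun n => (hC n).inj.mono (hU n)) fun n z hz =>
      ((hC n).bound (hG.sq (pos n)).1.cont hG.pos (hG.sq (pos n)).2).2 z (hU n hz)
  have key : ∀ c : Cp F, ∃ (A : ℂ) (Q : ℝ), (0 ≤ Q ∧ Disjoint (closedBall A Q) (G '' (φ '' F)ᶜ)) ∧
      ∀ p ∈ c.1, ∀ ε : ℝ, 0 < ε → ∃ δ, 0 < δ ∧ ∀ z ∈ ball p δ, φ z ∉ φ '' F →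
        ‖G (φ z) - A‖ ≤ Q + ε := fun c => by
    choose A Q q1 q2 q3 q4 q5 using fun n => lfm_one hG (pos n) (hC n) c
    obtain ⟨A₀, -, hA⟩ := lfm_lim (isCompact_closedBall _ _) q1
    obtain ⟨Q₀, hQ0, hQ⟩ := lfm_lim isCompact_Icc q2
    refine ⟨A₀, Q₀, ⟨hQ0.1, disjoint_left.2 fun y hy => ?_⟩, fun p hp ε hε => ?_⟩
    · obtain ⟨v, v1, v2⟩ := lfm_ball hA hQ (fun n => (q2 n).1) hy
      exact g5 v y v1 (Eventually.of_forall fun n => disjoint_left.1 (q3 n) (v2 n))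
    · obtain ⟨δ, hδ, h1⟩ := hG.key c hp hε
      refine ⟨δ, hδ, fun z hz hz' => ?_⟩
      have h2 : ∀ᶠ n in UF, c ∈ s n ∨ p = ζ c := by
        rcases (hG.nn c).eq_or_lt with h | h
        · rw [hG.eq c, ← h, sqr_zero] at hp
          exact Eventually.of_forall fun n => Or.inr hp
        · exact (((tendsto_one_div_add_atTop_nhds_zero_nat (𝕜 := ℝ)).eventually
            (ge_mem_nhds h)).filter_mono UF_le).mono fun n hn => Or.inl ((hs n c).2 hn)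
      refine le_of_tendsto_of_tendsto ((g4 _ hz').sub hA).norm (hQ.add_const ε)
        (h2.mono fun n hn => ?_)
      have h3 := h1 (s n) (g n) (a n) (r n) (pos n) (hC n) z hz (g n (φ z)) (Or.inl ⟨hU n hz', rfl⟩)
      show ‖g n (φ z) - A n‖ ≤ Q n + ε
      by_cases h4 : c ∈ s n
      · rw [(q4 n h4).1, (q4 n h4).2]
        exact h3.1 h4
      · rw [(q5 n h4).1, (q5 n h4).2, zero_add, ← hn.resolve_left h4]
        exact h3.2 h4
  choose A Q k1 k2 using key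
  exact ⟨G, A, Q, g1, g2, g3, k1, k2⟩

end Vale.Agent.P116.L
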