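import Vale.Agent.P116.L.Sqr

/-! P116 L/Fat. (TASK) `fat`: a square that meets `closedBall p (2 * ρ)` at `x` contains a square of side `m = min σ (ρ / 2)` through `x` (corner `min x.re (ζ.re + σ - m)`, same for `im`), which lies in the square of side `6 * ρ` centred at `p`; `sqr_vol`, `measure_biUnion_finset`. `fin_big`: otherwise take a large finite subfamily (`Set.Infinite.exists_subset_card_eq`), the areas add up inside a bounded set. `sq_len`: the set lies in an interval of length `2 * σ` (`sqr_dist`) and in `Ioo ρ (2 * ρ)`; it is `Ioo` intersected with a compact image of the square. Helper names start with `lfa_`. -/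

open MeasureTheory Set Metric Filter Topology Complex
open scoped ENNReal ComplexConjugate Real

set_option linter.unusedSectionVars false

noncomputable section

namespace Vale.Agent.P116.L

open Vale.Agent.P116

variable {ι : Type} {s s' : Finset ι} {K S : ι → Set ℂ} {g h φ : ℂ → ℂ} {a ζ : ι → ℂ}
  {r σ : ι → ℝ} {V U A B E F : Set ℂ} {p e z w : ℂ} {t ρ R M η ε : ℝ}

theorem lfa_one {ζ x : ℂ} {σ : ℝ} (hσ : 0 < σ) (hρ : 0 < ρ) (hx : x ∈ sqr ζ σ)
    (hx' : x ∈ closedBall p (2 * ρ)) : ENNReal.ofReal (min (2 * σ) ρ) ^ 2 ≤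
      ENNReal.ofReal 4 * volume (sqr ζ σ ∩ sqr ⟨p.re - 3 * ρ, p.im - 3 * ρ⟩ (6 * ρ)) := by
  obtain ⟨m, hm⟩ : ∃ m, m = min σ (ρ / 2) := ⟨_, rfl⟩
  have m0 : 0 < m := by rw [hm]; positivity
  have m1 : m ≤ σ := hm ▸ min_le_left _ _
  have m2 : m ≤ ρ / 2 := hm ▸ min_le_right _ _
  have m3 : min (2 * σ) ρ = 2 * m := by
    rw [hm, mul_min_of_nonneg _ _ (by norm_num : (0 : ℝ) ≤ 2)]
    exact congrArg _ (by ring)
  have d := mem_closedBall_iff_norm.1 hx'
  have d1 := abs_le.1 ((abs_re_le_norm _).trans d)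
  have d2 := abs_le.1 ((abs_im_le_norm _).trans d)
  rw [sub_re] at d1
  rw [sub_im] at d2
  obtain ⟨⟨a1, a2⟩, a3, a4⟩ := mem_reProdIm.1 hx
  have hs : sqr ⟨min x.re (ζ.re + σ - m), min x.im (ζ.im + σ - m)⟩ m ⊆
      sqr ζ σ ∩ sqr ⟨p.re - 3 * ρ, p.im - 3 * ρ⟩ (6 * ρ) := by
    intro y hy
    obtain ⟨⟨b1, b2⟩, b3, b4⟩ := mem_reProdIm.1 hy
    simp only at b1 b2 b3 b4
    have c1 := min_le_left x.re (ζ.re + σ - m)
    have c2 := min_le_right x.re (ζ.re + σ - m)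
    have c3 := min_le_left x.im (ζ.im + σ - m)
    have c4 := min_le_right x.im (ζ.im + σ - m)
    have c5 : ζ.re ≤ min x.re (ζ.re + σ - m) := le_min a1 (by linarith)
    have c6 : ζ.im ≤ min x.im (ζ.im + σ - m) := le_min a3 (by linarith)
    have c7 : x.re - m ≤ min x.re (ζ.re + σ - m) := le_min (by linarith) (by linarith)
    have c8 : x.im - m ≤ min x.im (ζ.im + σ - m) := le_min (by linarith) (by linarith)
    refine ⟨mem_reProdIm.2 ⟨⟨?_, ?_⟩, ?_, ?_⟩, mem_reProdIm.2 ⟨⟨?_, ?_⟩, ?_, ?_⟩⟩ <;>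
      (try simp only) <;> linarith [d1.1, d1.2, d2.1, d2.2]
  refine le_trans (le_of_eq ?_) (mul_le_mul_right (measure_mono hs) _)
  rw [sqr_vol _ m0.le, m3, ← ENNReal.ofReal_pow (by positivity), ← ENNReal.ofReal_mul (by norm_num)]
  exact congrArg _ (by ring)

open Classical in
theorem fat (hp : ∀ j ∈ s, 0 < σ j)
    (hd : ∀ i ∈ s, ∀ j ∈ s, i ≠ j → Disjoint (sqr (ζ i) (σ i)) (sqr (ζ j) (σ j))) (hρ : 0 < ρ) :
    ∑ j ∈ s.filter fun j => (sqr (ζ j) (σ j) ∩ closedBall p (2 * ρ)).Nonempty,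
      ENNReal.ofReal (min (2 * σ j) ρ) ^ 2 ≤ ENNReal.ofReal (144 * ρ ^ 2) := by
  classical
  calc ∑ j ∈ s.filter fun j => (sqr (ζ j) (σ j) ∩ closedBall p (2 * ρ)).Nonempty,
        ENNReal.ofReal (min (2 * σ j) ρ) ^ 2
      ≤ ∑ j ∈ s.filter fun j => (sqr (ζ j) (σ j) ∩ closedBall p (2 * ρ)).Nonempty,
          ENNReal.ofReal 4 * volume (sqr (ζ j) (σ j) ∩ sqr ⟨p.re - 3 * ρ, p.im - 3 * ρ⟩ (6 * ρ)) :=
        Finset.sum_le_sum fun j hj => by
          obtain ⟨h1, x, h2, h3⟩ := Finset.mem_filter.1 hj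
          exact lfa_one (hp j h1) hρ h2 h3
    _ ≤ ENNReal.ofReal 4 * volume (sqr ⟨p.re - 3 * ρ, p.im - 3 * ρ⟩ (6 * ρ)) := by
        rw [← Finset.mul_sum, ← measure_biUnion_finset]
        · exact mul_le_mul_right (measure_mono (iUnion₂_subset fun _ _ => inter_subset_right)) _
        · intro i hi j hj hij
          exact (hd i (Finset.mem_filter.1 hi).1 j (Finset.mem_filter.1 hj).1 hij).mono
            inter_subset_left inter_subset_left
        · exact fun j _ => ((sqr_cpt _ _).inter (sqr_cpt _ _)).measurableSet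
    _ = _ := by
        rw [sqr_vol _ (by positivity), ← ENNReal.ofReal_mul (by norm_num)]
        exact congrArg _ (by ring)

theorem fin_big (hd : Pairwise fun i j => Disjoint (sqr (ζ i) (σ i)) (sqr (ζ j) (σ j)))
    (hF : Bornology.IsBounded F) (hs : ∀ j, sqr (ζ j) (σ j) ⊆ F) (hε : 0 < ε) :
    {j | ε ≤ σ j}.Finite := by
  refine (Measure.finite_const_le_meas_of_disjoint_iUnion volume
    (ε := ENNReal.ofReal (ε ^ 2)) (ENNReal.ofReal_pos.2 (by positivity))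
    (As := fun j => sqr (ζ j) (σ j)) (fun j => (sqr_cpt _ _).measurableSet) hd
    ((measure_mono (iUnion_subset hs)).trans_lt hF.measure_lt_top).ne).subset fun j hj => ?_
  have h1 : ε ≤ σ j := hj
  change ENNReal.ofReal (ε ^ 2) ≤ volume (sqr (ζ j) (σ j))
  rw [sqr_vol _ (hε.le.trans h1)]
  exact ENNReal.ofReal_le_ofReal (pow_le_pow_left₀ hε.le h1 2)

theorem sq_len (ζ p : ℂ) (σ ρ : ℝ) :
    MeasurableSet {t | t ∈ Ioo ρ (2 * ρ) ∧ (sqr ζ σ ∩ sphere p t).Nonempty} ∧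
      volume {t | t ∈ Ioo ρ (2 * ρ) ∧ (sqr ζ σ ∩ sphere p t).Nonempty} ≤
        ENNReal.ofReal (min (2 * σ) ρ) := by
  have e : {t | t ∈ Ioo ρ (2 * ρ) ∧ (sqr ζ σ ∩ sphere p t).Nonempty} =
      Ioo ρ (2 * ρ) ∩ (fun z => dist z p) '' sqr ζ σ := by
    ext t
    exact and_congr_right fun _ => ⟨fun ⟨x, h1, h2⟩ => ⟨x, h1, h2⟩, fun ⟨x, h1, h2⟩ => ⟨x, h1, h2⟩⟩
  rw [e]
  refine ⟨measurableSet_Ioo.inter ((sqr_cpt ζ σ).image (by fun_prop)).measurableSet, ?_⟩
  rcases le_total (2 * σ) ρ with h | h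
  · rw [min_eq_left h]
    refine (measure_mono inter_subset_right).trans ((Real.volume_le_diam _).trans ?_)
    refine ediam_le_of_forall_dist_le ?_
    rintro _ ⟨x, hx, rfl⟩ _ ⟨y, hy, rfl⟩
    exact (abs_dist_sub_le x y p).trans (sqr_dist hx hy)
  · rw [min_eq_right h]
    refine (measure_mono inter_subset_left).trans ?_
    rw [Real.volume_Ioo]
    exact ENNReal.ofReal_le_ofReal (by linarith)

end Vale.Agent.P116.L
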