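import Vale.Agent.P116.L.Fat

/-! P116 L/Sel. (TASK) `sel_step`: a square that meets `closedBall p (ρ / 2)` and the complement of `ball p ρ` has `ρ / 4 ≤ σ` (`sqr_dist`); these are finitely many (`fin_big`), their union over `J` is closed and misses `p`. `sel`: `choose` and `Nat.rec`. `pigeon`: `En (ann p (ρ k)) + En (closedBall p (2 * ρ (k + 1))) ≤ En (closedBall p (2 * ρ k))` (disjoint measurable subsets, `lintegral_union`, `Finset.sum_union`, `Finset.sum_le_sum_of_subset`); by induction the sum over `k < N` is at most `C`; take the minimum. Helper names start with `lse_`. -/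

open MeasureTheory Set Metric Filter Topology Complex
open scoped ENNReal ComplexConjugate Real

set_option linter.unusedSectionVars false

noncomputable section

namespace Vale.Agent.P116.L

open Vale.Agent.P116

variable {ι : Type} {s s' : Finset ι} {K S : ι → Set ℂ} {g h φ : ℂ → ℂ} {a ζ : ι → ℂ}
  {r σ : ι → ℝ} {V U A B E F : Set ℂ} {p e z w : ℂ} {t ρ R M η ε : ℝ}

theorem sel_step (hd : Pairwise fun i j => Disjoint (sqr (ζ i) (σ i)) (sqr (ζ j) (σ j)))
    (hF : Bornology.IsBounded F) (hs : ∀ j, sqr (ζ j) (σ j) ⊆ F) {J : Set ι}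
    (hJ : ∀ j ∈ J, p ∉ sqr (ζ j) (σ j)) (hρ : 0 < ρ) : ∃ ρ', 0 < ρ' ∧ 2 * ρ' < ρ ∧
      ∀ j ∈ J, (sqr (ζ j) (σ j) ∩ closedBall p (2 * ρ')).Nonempty → sqr (ζ j) (σ j) ⊆ ball p ρ := by
  have hT : ({j | ρ / 4 ≤ σ j} ∩ J).Finite :=
    (fin_big hd hF hs (by positivity)).subset inter_subset_left
  have hZ : IsClosed (⋃ j ∈ {j | ρ / 4 ≤ σ j} ∩ J, sqr (ζ j) (σ j)) :=
    hT.isClosed_biUnion fun j _ => (sqr_cpt _ _).isClosed
  have hp : p ∈ (⋃ j ∈ {j | ρ / 4 ≤ σ j} ∩ J, sqr (ζ j) (σ j))ᶜ := fun h => by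
    obtain ⟨j, hj, h⟩ := mem_iUnion₂.1 h
    exact hJ j hj.2 h
  obtain ⟨δ, hδ, hb⟩ := Metric.isOpen_iff.1 hZ.isOpen_compl p hp
  have m1 := min_le_left (δ / 4) (ρ / 4)
  have m2 := min_le_right (δ / 4) (ρ / 4)
  refine ⟨min (δ / 4) (ρ / 4), lt_min (by positivity) (by positivity), by linarith,
    fun j hj ⟨x, hx, hx'⟩ y hy => ?_⟩
  rw [mem_closedBall] at hx'
  by_cases h1 : ρ / 4 ≤ σ j
  · exact (hb (mem_ball.2 (by linarith)) (mem_iUnion₂.2 ⟨j, ⟨h1, hj⟩, hx⟩)).elim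
  · have h2 := sqr_dist hy hx
    have h3 := dist_triangle y x p
    exact mem_ball.2 (by linarith [not_le.1 h1])

theorem sel (hd : Pairwise fun i j => Disjoint (sqr (ζ i) (σ i)) (sqr (ζ j) (σ j)))
    (hF : Bornology.IsBounded F) (hs : ∀ j, sqr (ζ j) (σ j) ⊆ F) {J : Set ι}
    (hJ : ∀ j ∈ J, p ∉ sqr (ζ j) (σ j)) (hρ : 0 < ρ) : ∃ q : ℕ → ℝ, q 0 = ρ ∧ ∀ k, 0 < q k ∧
      2 * q (k + 1) < q k ∧ ∀ j ∈ J, (sqr (ζ j) (σ j) ∩ closedBall p (2 * q (k + 1))).Nonempty →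
        sqr (ζ j) (σ j) ⊆ ball p (q k) := by
  choose f h1 h2 h3 using fun t : {t : ℝ // 0 < t} => sel_step hd hF hs hJ t.2
  let u : ℕ → {t : ℝ // 0 < t} := fun k => Nat.rec ⟨ρ, hρ⟩ (fun _ t => ⟨f t, h1 t⟩) k
  exact ⟨fun k => (u k).1, rfl, fun k => ⟨(u k).2, h2 (u k), h3 (u k)⟩⟩

theorem lse_step (hA : MeasurableSet A) (hρ : 0 < ρ) (ht : 2 * t < ρ)
    (hS : ∀ j ∈ s, (S j ∩ closedBall p (2 * t)).Nonempty → S j ⊆ ball p ρ) :
    En h A s S r (ann p ρ) + En h A s S r (closedBall p (2 * t)) ≤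
      En h A s S r (closedBall p (2 * ρ)) := by
  classical
  have s1 : ann p ρ ⊆ closedBall p (2 * ρ) := sdiff_subset
  have s2 : closedBall p (2 * t) ⊆ ball p ρ := closedBall_subset_ball ht
  have s3 : closedBall p (2 * t) ⊆ closedBall p (2 * ρ) := closedBall_subset_closedBall (by linarith)
  unfold En
  rw [add_add_add_comm]
  refine add_le_add ?_ ?_
  · rw [← lintegral_union (measurableSet_closedBall.diff hA)
      (Set.disjoint_left.2 fun z hz hz' => hz.1.2 (s2 hz'.1))]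
    exact lintegral_mono_set (union_subset (sdiff_subset_sdiff_left s1) (sdiff_subset_sdiff_left s3))
  · rw [← Finset.sum_union (Finset.disjoint_filter.2 fun j hj ⟨z, hz, hz'⟩ h2 =>
      hz'.2 (hS j hj h2 hz))]
    refine Finset.sum_le_sum_of_subset fun j hj => ?_
    rw [Finset.mem_union, Finset.mem_filter, Finset.mem_filter] at hj
    rw [Finset.mem_filter]
    rcases hj with hj | hj
    · exact ⟨hj.1, hj.2.mono (inter_subset_inter_right _ s1)⟩
    · exact ⟨hj.1, hj.2.mono (inter_subset_inter_right _ s3)⟩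

theorem pigeon (hA : MeasurableSet A) {q : ℕ → ℝ} (hq : ∀ k, 0 < q k ∧ 2 * q (k + 1) < q k ∧
      ∀ j ∈ s, (S j ∩ closedBall p (2 * q (k + 1))).Nonempty → S j ⊆ ball p (q k)) {N : ℕ}
    (hN : 0 < N) (hη : 0 ≤ η) (hE : En h A s S r (closedBall p (2 * q 0)) ≤ ENNReal.ofReal (N * η)) :
    ∃ k < N, En h A s S r (ann p (q k)) ≤ ENNReal.ofReal η := by
  have key : ∀ m : ℕ, ∑ k ∈ Finset.range m, En h A s S r (ann p (q k)) +
      En h A s S r (closedBall p (2 * q m)) ≤ En h A s S r (closedBall p (2 * q 0)) := by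
    intro m
    induction m with
    | zero => rw [Finset.range_zero, Finset.sum_empty, zero_add]
    | succ m ih =>
      rw [Finset.sum_range_succ, add_assoc]
      exact (add_le_add le_rfl (lse_step hA (hq m).1 (hq m).2.1 (hq m).2.2)).trans ih
  by_contra hc
  push Not at hc
  have h1 := (le_self_add.trans (key N)).trans hE
  have h2 : ∑ k ∈ Finset.range N, ENNReal.ofReal η <
      ∑ k ∈ Finset.range N, En h A s S r (ann p (q k)) :=
    ENNReal.sum_lt_sum_of_nonempty ⟨0, Finset.mem_range.2 hN⟩ fun k hk =>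
      hc k (Finset.mem_range.1 hk)
  rw [Finset.sum_const, Finset.card_range, nsmul_eq_mul, ← ENNReal.ofReal_natCast,
    ← ENNReal.ofReal_mul (Nat.cast_nonneg N)] at h2
  exact absurd h1 (not_le.2 h2)

end Vale.Agent.P116.L
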