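import Vale.Agent.P116.L.Ar
import Vale.Agent.P116.L.Chain
import Vale.Agent.P116.L.Avg
import Vale.Agent.P116.L.Sel

/-! P116 L/Key. (TASK) `circle`: choose `ρ` with `closedBall p (2 * ρ) ⊆ V`, `φ` of it in `ball 0 R`, and `4 * ρ ≤ σ c` if `0 < σ c`; `sel` with `J = {j | j ≠ c}` (`Cp.ext_mem`), `η = ε / 200`, `N` with `100 * R ^ 2 ≤ N * η ^ 2`, `δ = q N` (`q` is antitone); for given data use `area_bd`, `pigeon` with `s.erase c`, `avg`. `key`: `Circ.max` for `U = φ '' ball p t` (open by `W.open_image`, its frontier lies in `φ '' sphere p t` as `φ '' closedBall p t` is compact); `chain1` in the first case; in the second case `s.erase c = s`, `chain0` and `Circ.max` twice (for `e` and `-e`), `g (φ p) ∈ Phi (φ p)`; `norm_le_of_pr`. Helper names start with `lke_`. -/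

open MeasureTheory Set Metric Filter Topology Complex
open scoped ENNReal ComplexConjugate Real

set_option linter.unusedSectionVars false

noncomputable section

namespace Vale.Agent.P116.L

open Vale.Agent.P116

variable {ι : Type} {s s' : Finset ι} {K S : ι → Set ℂ} {g h φ : ℂ → ℂ} {a ζ : ι → ℂ}
  {r σ : ι → ℝ} {V U A B E F : Set ℂ} {p e z w : ℂ} {t ρ R M η ε : ℝ}

theorem Glob.dis {ζ : Cp F → ℂ} {σ : Cp F → ℝ} (hG : Glob V φ F ζ σ R) :
    Pairwise fun i j => Disjoint (sqr (ζ i) (σ i)) (sqr (ζ j) (σ j)) := by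
  intro i j hij
  show Disjoint (sqr (ζ i) (σ i)) (sqr (ζ j) (σ j))
  rw [← hG.eq, ← hG.eq]
  exact Set.disjoint_left.2 fun z hz hz' => hij (Cp.ext_mem hz hz')

theorem Glob.sq {ζ : Cp F → ℂ} {σ : Cp F → ℝ} (hG : Glob V φ F ζ σ R) {s : Finset (Cp F)}
    (hs : ∀ j ∈ s, 0 < σ j) : Sq V φ s ζ σ ∧ ∀ j ∈ s, Ks φ ζ σ j ⊆ ball 0 R := by
  have hF : ∀ j, sqr (ζ j) (σ j) ⊆ F := fun j => by rw [← hG.eq]; exact j.sub
  exact ⟨⟨hG.op, hG.hol, hG.inj, hs, fun j _ => (hF j).trans hG.sub, fun i _ j _ hij => hG.dis hij⟩,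
    fun j _ => (image_mono (hF j)).trans hG.bd⟩

open Classical in
theorem Glob.circle {ζ : Cp F → ℂ} {σ : Cp F → ℝ} (hG : Glob V φ F ζ σ R) (c : Cp F) (hp : p ∈ c.1)
    (hε : 0 < ε) : ∃ δ, 0 < δ ∧ ∀ (s : Finset (Cp F)) (g : ℂ → ℂ) (a : Cp F → ℂ) (r : Cp F → ℝ),
      (∀ j ∈ s, 0 < σ j) → Circ s (Ks φ ζ σ) g a r → ∃ t, δ ≤ t ∧ closedBall p t ⊆ V ∧
        (0 < σ c → 2 * t ≤ σ c) ∧ Lt (g ∘ φ) (⋃ j ∈ s, sqr (ζ j) (σ j)) (s.erase c)
          (fun j => sqr (ζ j) (σ j)) r p t ≤ ENNReal.ofReal ε := by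
  have hF : ∀ j, sqr (ζ j) (σ j) ⊆ F := fun j => by rw [← hG.eq]; exact j.sub
  have pF : p ∈ F := c.sub hp
  have pV : p ∈ V := hG.sub pF
  have hc : ContinuousAt φ p := hG.hol.continuousOn.continuousAt (hG.op.mem_nhds pV)
  have h1 : V ∩ φ ⁻¹' ball 0 R ∈ 𝓝 p :=
    inter_mem (hG.op.mem_nhds pV) (hc (isOpen_ball.mem_nhds (hG.bd ⟨p, pF, rfl⟩)))
  obtain ⟨ρ₀, hρ₀, hb₀⟩ := Metric.nhds_basis_closedBall.mem_iff.1 h1
  obtain ⟨ρ, hρ, hρ1, hρ2⟩ : ∃ ρ : ℝ, 0 < ρ ∧ 2 * ρ ≤ ρ₀ ∧ (0 < σ c → 4 * ρ ≤ σ c) := by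
    by_cases hσ : 0 < σ c
    · refine ⟨min (ρ₀ / 2) (σ c / 4), by positivity, ?_, fun _ => ?_⟩
      · linarith [min_le_left (ρ₀ / 2) (σ c / 4)]
      · linarith [min_le_right (ρ₀ / 2) (σ c / 4)]
    · exact ⟨ρ₀ / 2, by positivity, by linarith, fun h => absurd h hσ⟩
  have hJ : ∀ j ∈ {j : Cp F | j ≠ c}, p ∉ sqr (ζ j) (σ j) := by
    intro j hj hpj
    rw [← hG.eq] at hpj
    exact hj (Cp.ext_mem hpj hp)
  obtain ⟨q, hq0, hq⟩ := sel hG.dis hG.cpt.isBounded hF hJ hρ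
  have hanti : Antitone q := antitone_nat_of_succ_le fun k => by
    linarith [(hq k).2.1, (hq (k + 1)).1]
  have hη : 0 < ε / 200 := by positivity
  have hR := hG.pos
  obtain ⟨N, hN⟩ := exists_nat_gt (100 * R ^ 2 / (ε / 200) ^ 2)
  have hN0 : 0 < N := by
    have : (0 : ℝ) < N := lt_trans (by positivity) hN
    exact_mod_cast this
  rw [div_lt_iff₀ (by positivity)] at hN
  refine ⟨q N, (hq N).1, fun s g a r hs h => ?_⟩
  obtain ⟨hsq, hK⟩ := hG.sq hs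
  have hB : closedBall p (2 * q 0) ⊆ V ∩ φ ⁻¹' ball 0 R :=
    (closedBall_subset_closedBall (by rw [hq0]; exact hρ1)).trans hb₀
  have hA : MeasurableSet (⋃ j ∈ s, sqr (ζ j) (σ j)) :=
    Finset.measurableSet_biUnion s fun j _ => (sqr_cpt _ _).measurableSet
  have hE := area_bd hsq h hR hK (s' := s.erase c) (Finset.erase_subset _ _)
    (B := closedBall p (2 * q 0)) measurableSet_closedBall (fun z hz => (hB hz).1) (by
      rintro _ ⟨z, hz, rfl⟩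
      exact closedBall_subset_closedBall (by linarith) (ball_subset_closedBall (hB hz).2))
  obtain ⟨k, hk, hEk⟩ := pigeon hA (s := s.erase c) (S := fun j => sqr (ζ j) (σ j)) (q := q)
    (fun k => ⟨(hq k).1, (hq k).2.1, fun j hj => (hq k).2.2 j (Finset.ne_of_mem_erase hj)⟩) hN0
    (sq_nonneg (ε / 200)) (hE.trans (ENNReal.ofReal_le_ofReal hN.le))
  obtain ⟨t, ht, hL⟩ := avg hA (fun j hj => hs j (Finset.mem_of_mem_erase hj))
    (fun j hj => h.nn j (Finset.mem_of_mem_erase hj)) (fun i _ j _ hij => hG.dis hij) (hq k).1 hη hEk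
  have hk0 : q k ≤ q 0 := hanti (Nat.zero_le k)
  have hkN : q N ≤ q k := hanti hk.le
  refine ⟨t, hkN.trans ht.1.le, fun z hz => (hB (closedBall_subset_closedBall ?_ hz)).1,
    fun hσ => ?_, ?_⟩
  · linarith [ht.2]
  · linarith [ht.2, hρ2 hσ]
  · rwa [show 200 * (ε / 200) = ε by ring] at hL

end Vale.Agent.P116.L
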