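import Vale.Agent.P116.L.Key

/-! P116 L/KeyB. `Glob.circle` gives `δ` and `t`. `Circ.max` for `U = φ '' ball p t` (open by `W.open_image`, its frontier lies in `φ '' sphere p t` as `φ '' closedBall p t` is compact); `chain1` with `sqr_sphere` in the first case; in the second case `s.erase c = s`, `chain0` and `Circ.max` twice (for `e` and `-e`), `g (φ p) ∈ Phi (φ p)` (`phi_of_not`, `Sq.mem_iff`, `Cp.ext_mem`); `norm_le_of_pr`, `ENNReal.ofReal_le_ofReal_iff`. Helper names start with `lkb_`. -/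

open MeasureTheory Set Metric Filter Topology Complex
open scoped ENNReal ComplexConjugate Real

set_option linter.unusedSectionVars false

noncomputable section

namespace Vale.Agent.P116.L

open Vale.Agent.P116

variable {ι : Type} {s s' : Finset ι} {K S : ι → Set ℂ} {g h φ : ℂ → ℂ} {a ζ : ι → ℂ}
  {r σ : ι → ℝ} {V U A B E F : Set ℂ} {p e z w : ℂ} {t ρ R M η ε : ℝ}

theorem lkb_max (hq : Sq V φ s ζ σ) (h : Circ s (Ks φ ζ σ) g a r) (hs : closedBall p t ⊆ V)
    (he : ‖e‖ = 1) (hM : ∀ z ∈ sphere p t, ∀ w ∈ Phi s (Ks φ ζ σ) g a r (φ z), pr e w ≤ M) :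
    ∀ z ∈ ball p t, ∀ w ∈ Phi s (Ks φ ζ σ) g a r (φ z), pr e w ≤ M := by
  have hc : IsCompact (φ '' closedBall p t) :=
    (isCompact_closedBall p t).image_of_continuousOn (hq.hol.continuousOn.mono hs)
  have ho := W.open_image hq.op hq.hol hq.inj isOpen_ball (ball_subset_closedBall.trans hs)
  intro z hz
  refine h.max hq.cont ho (hc.isBounded.subset (image_mono ball_subset_closedBall)) he
    (fun y hy => ?_) _ (mem_image_of_mem φ hz)
  rw [ho.frontier_eq] at hy
  obtain ⟨x, hx, rfl⟩ := closure_minimal (image_mono ball_subset_closedBall) hc.isClosed hy.1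
  exact hM x (le_antisymm hx (not_lt.1 fun h => hy.2 (mem_image_of_mem φ h)))

theorem Glob.key {ζ : Cp F → ℂ} {σ : Cp F → ℝ} (hG : Glob V φ F ζ σ R) (c : Cp F) (hp : p ∈ c.1)
    (hε : 0 < ε) : ∃ δ, 0 < δ ∧ ∀ (s : Finset (Cp F)) (g : ℂ → ℂ) (a : Cp F → ℂ) (r : Cp F → ℝ),
      (∀ j ∈ s, 0 < σ j) → Circ s (Ks φ ζ σ) g a r → ∀ z ∈ ball p δ,
        ∀ w ∈ Phi s (Ks φ ζ σ) g a r (φ z),
          (c ∈ s → ‖w - a c‖ ≤ r c + ε) ∧ (c ∉ s → ‖w - g (φ p)‖ ≤ ε) := by
  classical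
  obtain ⟨δ, hδ, hC⟩ := hG.circle c hp hε
  refine ⟨δ, hδ, fun s g a r hs h z hz w hw => ?_⟩
  obtain ⟨t, h1, h2, h3, h4⟩ := hC s g a r hs h
  have ht := hδ.trans_le h1
  have hq := (hG.sq hs).1
  have hS := sphere_subset_closedBall.trans h2
  have hz' := ball_subset_ball h1 hz
  refine ⟨fun hc => norm_le_of_pr (add_nonneg (h.nn c hc) hε.le) fun e he => ?_,
    fun hc => norm_le_of_pr hε.le fun e he => ?_⟩
  · have h5 := lkb_max (M := pr e (a c) + r c + ε) hq h h2 he (fun y hy v hv => by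
      have h6 := (ENNReal.ofReal_le_ofReal_iff hε.le).1 ((chain1 hq h ht hS he hc
        (sqr_sphere (hG.eq c ▸ hp) ht.le (h3 (hs c hc))) hy hv).trans h4)
      linarith) z hz' w hw
    rw [pr_sub]
    linarith
  · rw [Finset.erase_eq_of_notMem hc] at h4
    have h0 : φ p ∉ ⋃ j ∈ s, Ks φ ζ σ j := fun h0 => by
      obtain ⟨j, hj, h0⟩ := mem_iUnion₂.1 h0
      rw [hq.mem_iff (h2 (mem_closedBall_self ht.le)) hj, ← hG.eq j] at h0
      exact hc (Cp.ext_mem hp h0 ▸ hj)
    have h5 := lkb_max (e := -e) (M := ε - pr e w) hq h h2 (by rwa [norm_neg]) (fun y hy v hv => by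
      have h6 := lkb_max (M := pr e v + ε) hq h h2 he (fun y' hy' v' hv' => by
        have h7 := (ENNReal.ofReal_le_ofReal_iff hε.le).1
          ((chain0 hq h ht hS he hy' hy hv' hv).trans h4)
        linarith) z hz' w hw
      rw [pr_neg]
      linarith) p (mem_ball_self ht) (g (φ p)) (Or.inl ⟨h0, rfl⟩)
    rw [pr_neg] at h5
    rw [pr_sub]
    linarith

end Vale.Agent.P116.L
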