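import Vale.Agent.P116.L.Fam
import Vale.Agent.P116.L.Cmp

/-! P116 L/Main. (TASK) Choose `ζ, σ` for the components (`Cp.eq`, `Cp.pt_mem`), `R` from compactness of `φ '' F`; `Glob.fam`; `comp_ball` with `E = φ '' F`, `c z = A (Cp.mk (invFunOn φ V z) _)` (use `if h : invFunOn φ V z ∈ F`). `clu`: `φ '' (ball p δ ∩ V)` is an open neighbourhood of `φ p` (`W.open_image`). `cst`: `invFunOn φ V` is continuous on `φ '' V` (`W.inv_hol`), `ContinuousOn.image_connectedComponentIn_subset` or `IsPreconnected.image` + `subset_connectedComponentIn`, `connectedComponentIn_eq`. The limit at infinity from `‖G z - z‖ ≤ 5 * R` (`tendsto_cocompact_cocompact_of_norm`). Helper names start with `lma_`. -/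

open MeasureTheory Set Metric Filter Topology Complex
open scoped ENNReal ComplexConjugate Real

set_option linter.unusedSectionVars false

noncomputable section

namespace Vale.Agent.P116.L

open Vale.Agent.P116

variable {ι : Type} {s s' : Finset ι} {K S : ι → Set ℂ} {g h φ : ℂ → ℂ} {a ζ : ι → ℂ}
  {r σ : ι → ℝ} {V U A B E F : Set ℂ} {p e z w : ℂ} {t ρ R M η ε : ℝ}

theorem lma_comp (hV : IsOpen V) (hd : DifferentiableOn ℂ φ V) (hi : InjOn φ V) (hFV : F ⊆ V)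
    {p p' : ℂ} (hp : p ∈ F) (hp' : p' ∈ F) (h : φ p' ∈ connectedComponentIn (φ '' F) (φ p)) :
    Cp.mk p' hp' = Cp.mk p hp := by
  have hl : ∀ x ∈ F, Function.invFunOn φ V (φ x) = x := fun x hx =>
    hi.leftInvOn_invFunOn (hFV hx)
  have hc : ContinuousOn (Function.invFunOn φ V) (connectedComponentIn (φ '' F) (φ p)) :=
    (W.inv_hol hV hd hi).continuousOn.mono
      ((connectedComponentIn_subset _ _).trans (image_mono hFV))
  have h1 := (isPreconnected_connectedComponentIn.image _ hc).subset_connectedComponentIn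
    (x := p) (F := F) ⟨φ p, mem_connectedComponentIn (mem_image_of_mem φ hp), hl p hp⟩ (by
      rintro _ ⟨y, hy, rfl⟩
      obtain ⟨x, hx, rfl⟩ := connectedComponentIn_subset _ _ hy
      rw [hl x hx]
      exact hx)
  exact Cp.ext_mem (Cp.mem_mk p' hp') (h1 ⟨φ p', h, hl p' hp'⟩)

theorem lma_inf {G : ℂ → ℂ} {C : ℝ} (hE : E ⊆ ball 0 R) (hC : ∀ z ∈ Eᶜ, ‖G z - z‖ ≤ C) :
    Tendsto G (cocompact ℂ) (cocompact ℂ) := by
  refine tendsto_cocompact_cocompact_of_norm fun ε => ⟨max R (ε + C), fun x hx => ?_⟩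
  have h1 : x ∈ Eᶜ := fun hm => by
    have := mem_ball_zero_iff.1 (hE hm)
    linarith [le_max_left R (ε + C)]
  have h2 := hC x h1
  have h3 := norm_sub_norm_le x (G x)
  rw [norm_sub_rev] at h3
  linarith [le_max_right R (ε + C)]

theorem schramm (hK : KoebeFin) (hV : IsOpen V) (hd : DifferentiableOn ℂ φ V) (hi : InjOn φ V)
    (hF : IsCompact F) (hFV : F ⊆ V)
    (hs : ∀ y ∈ F, ∃ (ζ : ℂ) (σ : ℝ), 0 ≤ σ ∧ connectedComponentIn F y = sqr ζ σ)
    (hc : IsPreconnected (φ '' F)ᶜ) : ∃ G : ℂ → ℂ, DifferentiableOn ℂ G (φ '' F)ᶜ ∧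
      InjOn G (φ '' F)ᶜ ∧ Tendsto G (cocompact ℂ) (cocompact ℂ) ∧ IsCompact (G '' (φ '' F)ᶜ)ᶜ ∧
      ∀ y, y ∉ G '' (φ '' F)ᶜ → ∃ (a : ℂ) (r : ℝ), 0 ≤ r ∧
        connectedComponentIn (G '' (φ '' F)ᶜ)ᶜ y = closedBall a r := by
  classical
  have hE : IsCompact (φ '' F) := hF.image_of_continuousOn (hd.continuousOn.mono hFV)
  obtain ⟨R, hR0, hR⟩ := hE.isBounded.subset_ball_lt 0 0
  choose ζ σ hσ using fun c : Cp F => hs c.pt c.pt_mem
  have hG : Glob V φ F ζ σ R :=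
    ⟨hV, hd, hi, hF, hFV, fun c => (hσ c).1, fun c => c.eq.trans (hσ c).2, hR0, hR⟩
  obtain ⟨G, A, Q, g1, g2, g3, g4, g5⟩ := hG.fam hK hc
  have hl : ∀ x ∈ F, Function.invFunOn φ V (φ x) = x := fun x hx =>
    hi.leftInvOn_invFunOn (hFV hx)
  obtain ⟨c, q, hcq⟩ : ∃ (c : ℂ → ℂ) (q : ℂ → ℝ), ∀ p (hp : p ∈ F),
      c (φ p) = A (Cp.mk p hp) ∧ q (φ p) = Q (Cp.mk p hp) :=
    ⟨(fun p => if h : p ∈ F then A (Cp.mk p h) else 0) ∘ Function.invFunOn φ V,
      (fun p => if h : p ∈ F then Q (Cp.mk p h) else 0) ∘ Function.invFunOn φ V, fun p hp => by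
        rw [Function.comp_apply, Function.comp_apply, hl p hp]
        exact ⟨dif_pos hp, dif_pos hp⟩⟩
  refine ⟨G, g1, g2, lma_inf hR g3, compl_cpt hE g1 g2 g3, fun y hy =>
    comp_ball (c := c) (q := q) hE hc g1 g2 g3 ?_ ?_ ?_ ?_ hy⟩
  · rintro _ ⟨p, hp, rfl⟩
    rw [(hcq p hp).2]
    exact (g4 _).1
  · rintro _ ⟨p, hp, rfl⟩ ε hε
    obtain ⟨δ, hδ, h⟩ := g5 (Cp.mk p hp) p (Cp.mem_mk p hp) ε hε
    have ho : IsOpen (φ '' (ball p δ ∩ V)) :=
      W.open_image hV hd hi (isOpen_ball.inter hV) inter_subset_right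
    filter_upwards [mem_nhdsWithin_of_mem_nhds
      (ho.mem_nhds (mem_image_of_mem φ ⟨mem_ball_self hδ, hFV hp⟩)), self_mem_nhdsWithin]
    rintro _ ⟨z, hz, rfl⟩ hn
    rw [(hcq p hp).1, (hcq p hp).2]
    exact h z hz.1 hn
  · rintro _ ⟨p, hp, rfl⟩
    rw [(hcq p hp).1, (hcq p hp).2]
    exact (g4 _).2
  · rintro _ ⟨p, hp, rfl⟩ z' hz'
    obtain ⟨p', hp', rfl⟩ := connectedComponentIn_subset _ _ hz'
    rw [(hcq p hp).1, (hcq p hp).2, (hcq p' hp').1, (hcq p' hp').2,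
      lma_comp hV hd hi hFV hp hp' hz']
    exact ⟨rfl, rfl⟩

end Vale.Agent.P116.L
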