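import Vale.Agent.P116.L.Usc

/-! P116 L/Max. (TASK) `opn`: the set of `w` with `w ∈ Phi z` for some `z ∉ U`, intersected with a closed ball around `w`, is the projection of a compact part of the graph (`graph`, `prop`), so closed; use `surj`. `fib`: the fibre is a point (`inj`, `img`) or `K j` (`dis`, `img`). `max`: the union `T` of the values on `closure U` is compact (`graph`, `loc_bd`); at a maximum point `w₀` of `pr e` with value `> M` the fibre misses `frontier U`, so lies in `U` (`IsPreconnected.subset_left_of_subset_union` with `U` and `(closure U)ᶜ`), `opn` puts `w₀ + x * e` in `T` (`pr_add`). Helper names start with `lmx_`. -/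

open MeasureTheory Set Metric Filter Topology Complex
open scoped ENNReal ComplexConjugate Real

set_option linter.unusedSectionVars false

noncomputable section

namespace Vale.Agent.P116.L

open Vale.Agent.P116

variable {ι : Type} {s s' : Finset ι} {K S : ι → Set ℂ} {g h φ : ℂ → ℂ} {a ζ : ι → ℂ}
  {r σ : ι → ℝ} {V U A B E F : Set ℂ} {p e z w : ℂ} {t ρ R M η ε : ℝ}

theorem lmx_cpt (hK : Cont s K) (h : Circ s K g a r) (hA : IsClosed A) (R R' : ℝ) :
    IsCompact (Prod.snd '' ({q : ℂ × ℂ | q.2 ∈ Phi s K g a r q.1} ∩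
      (A ∩ closedBall 0 R) ×ˢ closedBall 0 R')) :=
  ((((isCompact_closedBall 0 R).inter_left hA).prod (isCompact_closedBall 0 R')).inter_left
    (h.graph hK)).image continuous_snd

theorem Circ.opn (hK : Cont s K) (h : Circ s K g a r) (hU : IsOpen U)
    (hs : ∀ z, w ∈ Phi s K g a r z → z ∈ U) : ∀ᶠ w' in 𝓝 w, ∃ z ∈ U, w' ∈ Phi s K g a r z := by
  obtain ⟨R', hR⟩ := h.prop hK (‖w‖ + 1)
  have h1 := (lmx_cpt hK h hU.isClosed_compl R' (‖w‖ + 1)).isClosed.isOpen_compl.mem_nhds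
    (x := w) (by
      rintro ⟨⟨z, w'⟩, ⟨q1, ⟨q2, -⟩, -⟩, rfl⟩
      exact q2 (hs z q1))
  have h2 : closedBall (0 : ℂ) (‖w‖ + 1) ∈ 𝓝 w :=
    closedBall_mem_nhds_of_mem (mem_ball_zero_iff.2 (lt_add_one _))
  filter_upwards [h1, h2] with w' q1 q2
  obtain ⟨z, hz⟩ := h.surj hK w'
  refine ⟨z, by_contra fun hc => q1 ⟨(z, w'), ⟨hz, ⟨hc, ?_⟩, q2⟩, rfl⟩, hz⟩
  exact mem_closedBall_zero_iff.2 (hR z w' hz (mem_closedBall_zero_iff.1 q2))

theorem Circ.fib (hK : Cont s K) (h : Circ s K g a r) (w : ℂ) :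
    IsPreconnected {z | w ∈ Phi s K g a r z} := by
  by_cases hw : w ∈ ⋃ j ∈ s, closedBall (a j) (r j)
  · obtain ⟨j, hj, hw'⟩ := mem_iUnion₂.1 hw
    have e : {z | w ∈ Phi s K g a r z} = K j := by
      refine Subset.antisymm ?_ fun z hz => Or.inr ⟨j, hj, hz, hw'⟩
      rintro z (⟨q1, q2⟩ | ⟨i, hi, q1, q2⟩)
      · have : w ∈ (⋃ j ∈ s, closedBall (a j) (r j))ᶜ := h.img ▸ ⟨z, q1, q2.symm⟩
        exact absurd hw this
      · have : i = j := by_contra fun hc => disjoint_left.1 (h.dis i hi j hj hc) q2 hw'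
        exact this ▸ q1
    exact e ▸ hK.con j hj
  · refine Set.Subsingleton.isPreconnected ?_
    rintro z (⟨q1, q2⟩ | ⟨i, hi, -, q2⟩) z' hz'
    · rcases hz' with ⟨q3, q4⟩ | ⟨i, hi, -, q4⟩
      · exact h.inj q1 q3 (q2.symm.trans q4)
      · exact absurd (mem_iUnion₂.2 ⟨i, hi, q4⟩) hw
    · exact absurd (mem_iUnion₂.2 ⟨i, hi, q2⟩) hw

theorem Circ.max (hK : Cont s K) (h : Circ s K g a r) (hU : IsOpen U) (hb : Bornology.IsBounded U)
    (he : ‖e‖ = 1) (hM : ∀ z ∈ frontier U, ∀ w ∈ Phi s K g a r z, pr e w ≤ M) :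
    ∀ z ∈ U, ∀ w ∈ Phi s K g a r z, pr e w ≤ M := by
  intro z hz w hw
  by_contra hc
  obtain ⟨R, hR⟩ := hb.closure.subset_closedBall 0
  obtain ⟨R', hR'⟩ := h.loc_bd hK R
  have hT := lmx_cpt hK h (isClosed_closure (s := U)) R R'
  have hm : ∀ z ∈ U, ∀ w ∈ Phi s K g a r z, w ∈ Prod.snd ''
      ({q : ℂ × ℂ | q.2 ∈ Phi s K g a r q.1} ∩
        (closure U ∩ closedBall 0 R) ×ˢ closedBall 0 R') := fun z hz w hw =>
    ⟨(z, w), ⟨hw, ⟨subset_closure hz, hR (subset_closure hz)⟩, mem_closedBall_zero_iff.2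
      (hR' z (mem_closedBall_zero_iff.1 (hR (subset_closure hz))) w hw)⟩, rfl⟩
  obtain ⟨_, ⟨⟨z₀, w₀⟩, ⟨q1, ⟨q2, -⟩, -⟩, rfl⟩, hx⟩ :=
    hT.exists_isMaxOn ⟨w, hm z hz w hw⟩ (pr_cont e).continuousOn
  have hlt : M < pr e w₀ := (not_le.1 hc).trans_le (hx (hm z hz w hw))
  have key : ∀ y, w₀ ∈ Phi s K g a r y → y ∈ closure U → y ∈ U := fun y hy hy' =>
    by_contra fun hn => (hM y (hU.frontier_eq ▸ ⟨hy', hn⟩) w₀ hy).not_gt hlt
  have sub : {y | w₀ ∈ Phi s K g a r y} ⊆ U :=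
    (h.fib hK w₀).subset_left_of_subset_union hU isClosed_closure.isOpen_compl
      (disjoint_left.2 fun y hy hy' => hy' (subset_closure hy))
      (fun y hy => (em (y ∈ closure U)).imp (key y hy) id) ⟨z₀, q1, key z₀ q1 q2⟩
  have ht : Tendsto (fun x : ℝ => w₀ + x * e) (𝓝[>] 0) (𝓝 w₀) := by
    have : Continuous fun x : ℝ => w₀ + x * e := by fun_prop
    simpa using (this.tendsto 0).mono_left (nhdsWithin_le_nhds (s := Ioi 0))
  obtain ⟨x, ⟨y, hy, hy'⟩, hx0⟩ :=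
    ((ht.eventually (h.opn hK hU sub)).and self_mem_nhdsWithin).exists
  have := hx (hm y hy _ hy')
  change pr e (w₀ + x * e) ≤ pr e w₀ at this
  rw [pr_add he] at this
  exact absurd (mem_Ioi.1 hx0) (by linarith)

end Vale.Agent.P116.L
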