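import Vale.Agent.P116.L.Sqr

/-! P116 L/Ord. (TASK) `ord_usc`: if `y` lies between two values and is not a value, the sets of `θ` with `Ψ θ ⊆ Iio y` and with `Ψ θ ⊆ Ioi y` are open, disjoint and cover `X`. `len_img`: `addHaar_image_le_lintegral_abs_det_fderiv` on `ℝ` for `θ ↦ pr e (h (circleMap p t θ))` on the open set of `θ ∈ Ioo (-π) π` with `circleMap p t θ ∉ A` (`hasDerivAt_circleMap`, `pr_le`, `ContinuousLinearMap.det_toSpanSingleton`-like: `MeasureTheory.det_one_smulRight`), then `lintegral_indicator`; the end points `± π` give null sets. Helper names start with `lor_`. -/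

open MeasureTheory Set Metric Filter Topology Complex
open scoped ENNReal ComplexConjugate Real

set_option linter.unusedSectionVars false

noncomputable section

namespace Vale.Agent.P116.L

open Vale.Agent.P116

variable {ι : Type} {s s' : Finset ι} {K S : ι → Set ℂ} {g h φ : ℂ → ℂ} {a ζ : ι → ℂ}
  {r σ : ι → ℝ} {V U A B E F : Set ℂ} {p e z w : ℂ} {t ρ R M η ε : ℝ}

theorem ord_usc {X : Set ℝ} (hX : IsPreconnected X) {Ψ : ℝ → Set ℝ}
    (h1 : ∀ θ ∈ X, (Ψ θ).Nonempty ∧ (Ψ θ).OrdConnected)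
    (h2 : ∀ θ ∈ X, ∀ W, IsOpen W → Ψ θ ⊆ W → ∀ᶠ θ' in 𝓝 θ, Ψ θ' ⊆ W) :
    (⋃ θ ∈ X, Ψ θ).OrdConnected := by
  refine ⟨fun x hx z hz y hy => ?_⟩
  by_contra hn
  obtain ⟨θ₁, a1, b1⟩ := mem_iUnion₂.1 hx
  obtain ⟨θ₂, a2, b2⟩ := mem_iUnion₂.1 hz
  have key : ∀ θ ∈ X, Ψ θ ⊆ Iio y ∨ Ψ θ ⊆ Ioi y := by
    intro θ hθ
    by_contra hc
    rw [not_or, not_subset, not_subset] at hc
    obtain ⟨⟨u, hu, hu'⟩, v, hv, hv'⟩ := hc
    exact hn (mem_iUnion₂.2 ⟨θ, hθ, (h1 θ hθ).2.out hv hu ⟨not_lt.1 hv', not_lt.1 hu'⟩⟩)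
  have k1 : ∀ θ ∈ X, Ψ θ ⊆ Iio y → θ ∈ interior {θ | Ψ θ ⊆ Iio y} := fun θ hθ h =>
    mem_interior_iff_mem_nhds.2 (h2 θ hθ _ isOpen_Iio h)
  have k2 : ∀ θ ∈ X, Ψ θ ⊆ Ioi y → θ ∈ interior {θ | Ψ θ ⊆ Ioi y} := fun θ hθ h =>
    mem_interior_iff_mem_nhds.2 (h2 θ hθ _ isOpen_Ioi h)
  obtain ⟨θ, hθ, h3, h4⟩ := hX _ _ isOpen_interior isOpen_interior
    (fun θ hθ => (key θ hθ).imp (k1 θ hθ) (k2 θ hθ))
    ⟨θ₁, a1, k1 θ₁ a1 ((key θ₁ a1).resolve_right fun h => not_lt.2 hy.1 (h b1))⟩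
    ⟨θ₂, a2, k2 θ₂ a2 ((key θ₂ a2).resolve_left fun h => not_lt.2 hy.2 (h b2))⟩
  obtain ⟨w, hw⟩ := (h1 θ hθ).1
  have h5 : w < y := interior_subset h3 hw
  have h6 : y < w := interior_subset h4 hw
  exact lt_asymm h5 h6

theorem len_img (hA : IsClosed A) (hV : IsOpen V) (hd : DifferentiableOn ℂ h (V \ A)) (ht : 0 < t)
    (hs : sphere p t ⊆ V) (he : ‖e‖ = 1) :
    volume ((fun z => pr e (h z)) '' (sphere p t \ A)) ≤ Ln h A p t := by
  have hm : MeasurableSet (circleMap p t ⁻¹' Aᶜ) :=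
    (hA.isOpen_compl.preimage (continuous_circleMap p t)).measurableSet
  have hsub : (fun z => pr e (h z)) '' (sphere p t \ A) ⊆
      (fun θ => pr e (h (circleMap p t θ))) '' (circleMap p t ⁻¹' Aᶜ ∩ Ioo (-π) π) ∪
        {pr e (h (circleMap p t π))} := by
    rintro _ ⟨z, ⟨hz, hzA⟩, rfl⟩
    have h1 : z ∈ circleMap p t '' Ioc (-π) (-π + 2 * π) := by
      rw [(periodic_circleMap p t).image_Ioc Real.two_pi_pos, range_circleMap, abs_of_pos ht]
      exact hz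
    obtain ⟨θ, hθ, rfl⟩ := h1
    have h2 : θ ≤ π := by linarith [hθ.2]
    rcases h2.eq_or_lt with h3 | h3
    · exact Or.inr (by rw [h3]; rfl)
    · exact Or.inl ⟨θ, ⟨hzA, hθ.1, h3⟩, rfl⟩
  have hder : ∀ θ ∈ circleMap p t ⁻¹' Aᶜ ∩ Ioo (-π) π,
      HasDerivAt (fun θ => pr e (h (circleMap p t θ)))
        (pr e (deriv h (circleMap p t θ) * (circleMap 0 t θ * I))) θ := by
    intro θ hθ
    have h1 : circleMap p t θ ∈ V \ A := ⟨hs (circleMap_mem_sphere p ht.le θ), hθ.1⟩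
    have h2 := (hd.differentiableAt ((hV.sdiff hA).mem_nhds h1)).hasDerivAt
    have h3 := (h2.comp θ (hasDerivAt_circleMap p t θ)).const_mul (conj e)
    exact reCLM.hasFDerivAt.comp_hasDerivAt θ h3
  have h4 := addHaar_image_le_lintegral_abs_det_fderiv volume (hm.inter measurableSet_Ioo)
    fun θ hθ => (hder θ hθ).hasFDerivAt.hasFDerivWithinAt
  refine (measure_mono hsub).trans ((measure_union_le _ _).trans ?_)
  rw [measure_singleton, add_zero]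
  refine h4.trans ?_
  rw [← Measure.restrict_restrict hm, ← lintegral_indicator hm, Ln]
  refine lintegral_mono fun θ => ?_
  by_cases hθ : θ ∈ circleMap p t ⁻¹' Aᶜ
  · have hθ' : circleMap p t θ ∈ Aᶜ := hθ
    simp only [indicator_of_mem hθ, indicator_of_mem hθ', ContinuousLinearMap.det_toSpanSingleton]
    rw [← ofReal_norm, ← ENNReal.ofReal_mul ht.le]
    refine ENNReal.ofReal_le_ofReal ((pr_le he _).trans (le_of_eq ?_))
    rw [norm_mul, norm_mul, norm_I, norm_circleMap_zero, abs_of_pos ht]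
    ring
  · simp only [indicator_of_notMem hθ]
    exact zero_le

end Vale.Agent.P116.L
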