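import Vale.Agent.P116.L.Defs

/-! P116 L/Sqr. (TASK) Basic facts. `sqr` is a product of intervals (`Complex.mem_reProdIm`, `IsCompact.reProdIm`, `Convex.reProdIm` or a direct proof). `norm_le_of_pr`: take `e = w / ‖w‖`. Helper names start with `lsq_`. -/

open MeasureTheory Set Metric Filter Topology Complex
open scoped ENNReal ComplexConjugate Real

set_option linter.unusedSectionVars false

noncomputable section

namespace Vale.Agent.P116.L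

open Vale.Agent.P116

variable {ι : Type} {s s' : Finset ι} {K S : ι → Set ℂ} {g h φ : ℂ → ℂ} {a ζ : ι → ℂ}
  {r σ : ι → ℝ} {V U A B E F : Set ℂ} {p e z w : ℂ} {t ρ R M η ε : ℝ}

theorem sqr_cpt (ζ : ℂ) (σ : ℝ) : IsCompact (sqr ζ σ) :=
  IsCompact.reProdIm isCompact_Icc isCompact_Icc

theorem sqr_cvx (ζ : ℂ) (σ : ℝ) : Convex ℝ (sqr ζ σ) :=
  ((convex_Icc _ _).linear_preimage reLm).inter ((convex_Icc _ _).linear_preimage imLm)

theorem lsq_mem {ζ z : ℂ} {σ : ℝ} : z ∈ sqr ζ σ ↔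
    (ζ.re ≤ z.re ∧ z.re ≤ ζ.re + σ) ∧ ζ.im ≤ z.im ∧ z.im ≤ ζ.im + σ := Iff.rfl

theorem sqr_self (ζ : ℂ) {σ : ℝ} (h : 0 ≤ σ) : ζ ∈ sqr ζ σ :=
  lsq_mem.2 ⟨⟨le_rfl, le_add_of_nonneg_right h⟩, le_rfl, le_add_of_nonneg_right h⟩

theorem sqr_zero (ζ : ℂ) : sqr ζ 0 = {ζ} := by
  refine eq_singleton_iff_unique_mem.2 ⟨sqr_self ζ le_rfl, fun z hz => ?_⟩
  obtain ⟨⟨h1, h2⟩, h3, h4⟩ := lsq_mem.1 hz
  exact Complex.ext (by linarith) (by linarith)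

theorem sqr_dist {ζ x y : ℂ} {σ : ℝ} (hx : x ∈ sqr ζ σ) (hy : y ∈ sqr ζ σ) : dist x y ≤ 2 * σ := by
  obtain ⟨⟨h1, h2⟩, h3, h4⟩ := lsq_mem.1 hx
  obtain ⟨⟨k1, k2⟩, k3, k4⟩ := lsq_mem.1 hy
  have h5 : |(x - y).re| ≤ σ := by
    rw [sub_re, abs_le]
    constructor <;> linarith
  have h6 : |(x - y).im| ≤ σ := by
    rw [sub_im, abs_le]
    constructor <;> linarith
  rw [dist_eq_norm]
  linarith [norm_le_abs_re_add_abs_im (x - y)]

theorem sqr_vol (ζ : ℂ) {σ : ℝ} (h : 0 ≤ σ) : volume (sqr ζ σ) = ENNReal.ofReal (σ ^ 2) := by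
  have h1 := volume_preserving_equiv_real_prod.measure_preimage
    (s := Icc ζ.re (ζ.re + σ) ×ˢ Icc ζ.im (ζ.im + σ))
    (measurableSet_Icc.prod measurableSet_Icc).nullMeasurableSet
  rw [Measure.volume_eq_prod, Measure.prod_prod, Real.volume_Icc, Real.volume_Icc,
    add_sub_cancel_left, add_sub_cancel_left, ← ENNReal.ofReal_mul h, ← sq] at h1
  exact h1

theorem sqr_sphere {ζ p : ℂ} {σ t : ℝ} (hp : p ∈ sqr ζ σ) (ht : 0 ≤ t) (h : 2 * t ≤ σ) :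
    (sqr ζ σ ∩ sphere p t).Nonempty := by
  obtain ⟨⟨h1, h2⟩, h3, h4⟩ := lsq_mem.1 hp
  by_cases h5 : p.re + t ≤ ζ.re + σ
  · refine ⟨p + t, lsq_mem.2 ?_, ?_⟩
    · rw [add_re, add_im, ofReal_re, ofReal_im, add_zero]
      exact ⟨⟨by linarith, h5⟩, h3, h4⟩
    · rw [mem_sphere, dist_eq_norm, add_sub_cancel_left, norm_real, Real.norm_of_nonneg ht]
  · refine ⟨p - t, lsq_mem.2 ?_, ?_⟩
    · rw [sub_re, sub_im, ofReal_re, ofReal_im, sub_zero]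
      exact ⟨⟨by linarith [not_le.1 h5], by linarith⟩, h3, h4⟩
    · rw [mem_sphere, dist_eq_norm, sub_sub_cancel_left, norm_neg, norm_real,
        Real.norm_of_nonneg ht]

theorem Sq.cont (hq : Sq V φ s ζ σ) : Cont s (Ks φ ζ σ) := by
  have hc : ∀ j ∈ s, ContinuousOn φ (sqr (ζ j) (σ j)) := fun j hj =>
    hq.hol.continuousOn.mono (hq.sub j hj)
  refine ⟨fun j hj => ⟨_, mem_image_of_mem φ (sqr_self _ (hq.pos j hj).le)⟩,
    fun j hj => (sqr_cpt _ _).image_of_continuousOn (hc j hj),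
    fun j hj => (sqr_cvx _ _).isPreconnected.image φ (hc j hj), fun i hi j hj hij => ?_⟩
  refine Set.disjoint_left.2 ?_
  rintro _ ⟨x, hx, rfl⟩ ⟨y, hy, h⟩
  have h1 : y = x := hq.inj (hq.sub j hj hy) (hq.sub i hi hx) h
  exact Set.disjoint_left.1 (hq.dis i hi j hj hij) hx (h1 ▸ hy)

theorem Sq.mem_iff (hq : Sq V φ s ζ σ) (hz : z ∈ V) {j : ι} (hj : j ∈ s) :
    φ z ∈ Ks φ ζ σ j ↔ z ∈ sqr (ζ j) (σ j) :=
  hq.inj.mem_image_iff (hq.sub j hj) hz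

theorem Sq.hol_comp (hq : Sq V φ s ζ σ) (h : Circ s (Ks φ ζ σ) g a r) :
    IsOpen (V \ ⋃ j ∈ s, sqr (ζ j) (σ j)) ∧
      DifferentiableOn ℂ (g ∘ φ) (V \ ⋃ j ∈ s, sqr (ζ j) (σ j)) ∧
        InjOn (g ∘ φ) (V \ ⋃ j ∈ s, sqr (ζ j) (σ j)) := by
  have hm : MapsTo φ (V \ ⋃ j ∈ s, sqr (ζ j) (σ j)) (⋃ j ∈ s, Ks φ ζ σ j)ᶜ := fun z hz h1 => by
    obtain ⟨j, hj, h2⟩ := mem_iUnion₂.1 h1
    exact hz.2 (mem_iUnion₂.2 ⟨j, hj, (hq.mem_iff hz.1 hj).1 h2⟩)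
  exact ⟨hq.op.sdiff (isClosed_biUnion_finset fun j _ => (sqr_cpt _ _).isClosed),
    h.hol.comp (hq.hol.mono sdiff_subset) hm, h.inj.comp (hq.inj.mono sdiff_subset) hm⟩

theorem pr_cont (e : ℂ) : Continuous (pr e) :=
  continuous_re.comp (continuous_const.mul continuous_id)

theorem pr_sub (e w w' : ℂ) : pr e (w - w') = pr e w - pr e w' := by
  rw [pr, pr, pr, mul_sub, sub_re]

theorem pr_neg (e w : ℂ) : pr (-e) w = -pr e w := by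
  rw [pr, pr, map_neg, neg_mul, neg_re]

theorem pr_le (he : ‖e‖ = 1) (w : ℂ) : |pr e w| ≤ ‖w‖ :=
  (abs_re_le_norm _).trans (by rw [norm_mul, norm_conj, he, one_mul])

theorem pr_add (he : ‖e‖ = 1) (w : ℂ) (x : ℝ) : pr e (w + x * e) = pr e w + x := by
  have h : conj e * (x * e) = x := by
    rw [mul_left_comm, conj_mul', he, ofReal_one, one_pow, mul_one]
  rw [pr, pr, mul_add, add_re, h, ofReal_re]

theorem norm_le_of_pr (hM : 0 ≤ M) (h : ∀ e : ℂ, ‖e‖ = 1 → pr e w ≤ M) : ‖w‖ ≤ M := by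
  by_cases hw : w = 0
  · rw [hw, norm_zero]
    exact hM
  have h0 : ‖w‖ ≠ 0 := norm_ne_zero_iff.2 hw
  have h1 : ‖w / (‖w‖ : ℂ)‖ = 1 := by
    rw [norm_div, norm_real, norm_norm, div_self h0]
  have h2 := pr_add h1 0 ‖w‖
  rw [zero_add, mul_div_cancel₀ _ (ofReal_ne_zero.2 h0), pr, pr, mul_zero, zero_re, zero_add] at h2
  exact h2 ▸ h _ h1

theorem pr_ball (he : ‖e‖ = 1) (a : ℂ) {r : ℝ} (hr : 0 ≤ r) :
    pr e '' closedBall a r = Icc (pr e a - r) (pr e a + r) := by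
  refine Subset.antisymm ?_ fun y hy => ⟨a + ((y - pr e a : ℝ) : ℂ) * e, ?_, ?_⟩
  · rintro _ ⟨w, hw, rfl⟩
    have h1 := (pr_le he (w - a)).trans (mem_closedBall_iff_norm.1 hw)
    rw [pr_sub, abs_le] at h1
    exact ⟨by linarith [h1.1], by linarith [h1.2]⟩
  · rw [mem_closedBall_iff_norm, add_sub_cancel_left, norm_mul, he, mul_one, norm_real,
      Real.norm_eq_abs, abs_le]
    exact ⟨by linarith [hy.1], by linarith [hy.2]⟩
  · rw [pr_add he, add_sub_cancel]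

end Vale.Agent.P116.L
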